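import Crest.Agent.R12.DI.Row

/-! Row 12, block DI: the truncated cross term.  Prefix for helper lemmas: `dic_`. -/

set_option autoImplicit false

namespace Crest.Agent.R12

open Crest.Agent.R17
open scoped ComplexConjugate

open Classical in
theorem dica_key {x b : O} (hx : Prim x) (hb : PSq b) :
    GG b * conj (cb x b) * TC x = if IsCoprime x b then TC (x * b) else 0 := by
  split_ifs with h
  · rw [TC_mul hx hb.1 h, TC_sqfree hb]; ring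
  · rw [cb_eq_zero_of_not_coprime h]; simp

open Classical in
theorem dica_summ {a A : ℝ} (ha : 0 < a) (hA : 0 < A) (b d : O) :
    Summable fun x : Pr => if IsCoprime (x : O) b ∧ d ∣ (x : O) then
      TC (x * b) * (n6 x : ℂ) * (LW a A (nm x) : ℂ) else 0 := by
  have := di_summ ha hA (M := nm b ^ (1 / 6 : ℝ))
    (f := fun x => if IsCoprime x b ∧ d ∣ x then TC (x * b) * (n6 x : ℂ) else 0) fun x hx => by
      split_ifs
      · rw [norm_mul, Complex.norm_real, Real.norm_of_nonneg (n6_nonneg x)]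
        have h0 : 0 < nm x := nm_pos hx.ne_zero
        calc ‖TC (x * b)‖ * n6 x ≤ nm (x * b) ^ (1 / 6 : ℝ) * n6 x :=
              mul_le_mul_of_nonneg_right (norm_TC_le _) (n6_nonneg x)
          _ = nm b ^ (1 / 6 : ℝ) * (nm x ^ (1 / 6 : ℝ) * nm x ^ (-(1 : ℝ) / 6)) := by
              rw [nm_mul, Real.mul_rpow (nm_nonneg x) (nm_nonneg b), n6]; ring
          _ = nm b ^ (1 / 6 : ℝ) := by
              rw [← Real.rpow_add h0]; norm_num
      · rw [norm_zero]; exact Real.rpow_nonneg (nm_nonneg b) _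
  refine this.congr fun x => ?_
  split_ifs
  · ring
  · simp

open Classical in
/-- `TC x · GG b · conj (cb x b) = TC (x b)` for coprime `x, b` (`TC_mul`, `TC_sqfree`), else `0` -/
theorem di_CT_eq {a A B X : ℝ} (ha : 0 < a) (hA : 0 < A) {γ : O → ℂ} (hγ : Supp γ B X) (L : ℝ) :
    diCT L a A γ X = ∑ b₁ ∈ ball X, ∑ b₂ ∈ ball X, γ b₁ * conj (γ b₂) * ((cP * n6 b₂ : ℝ) : ℂ) *
      ∑ d ∈ pdiv b₂, if nm d ≤ L then mu d * diU a A b₁ d else 0 := by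
  have hs : HasSum (fun x : Pr => ∑ b₁ ∈ ball X, ∑ b₂ ∈ ball X,
      γ b₁ * conj (γ b₂) * ((cP * n6 b₂ : ℝ) : ℂ) *
        ∑ d ∈ pdiv b₂, if nm d ≤ L then mu d * (if IsCoprime (x : O) b₁ ∧ d ∣ (x : O) then
          TC (x * b₁) * (n6 x : ℂ) * (LW a A (nm x) : ℂ) else 0) else 0)
      (∑ b₁ ∈ ball X, ∑ b₂ ∈ ball X, γ b₁ * conj (γ b₂) * ((cP * n6 b₂ : ℝ) : ℂ) *
        ∑ d ∈ pdiv b₂, if nm d ≤ L then mu d * diU a A b₁ d else 0) := by
    refine hasSum_sum fun b₁ _ => hasSum_sum fun b₂ _ => HasSum.mul_left _ ?_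
    refine hasSum_sum fun d _ => ?_
    split_ifs
    · exact HasSum.mul_left _ (dica_summ ha hA b₁ d).hasSum
    · exact hasSum_zero
  rw [← hs.tsum_eq, diCT]
  refine tsum_congr fun x => ?_
  have hx : Prim (x : O) := x.2
  rw [XG, diM, diY, map_mul, map_mul, map_sum, Complex.conj_conj, Complex.conj_ofReal,
    Finset.sum_mul, Finset.mul_sum]
  refine Finset.sum_congr rfl fun b₁ _ => ?_
  rw [Finset.mul_sum, Finset.mul_sum, Finset.mul_sum]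
  refine Finset.sum_congr rfl fun b₂ _ => ?_
  by_cases h0 : γ b₁ = 0
  · simp [h0]
  have hk := dica_key hx (hγ b₁ h0).1
  rw [map_mul, map_mul, map_sum, Complex.conj_ofReal, Finset.mul_sum, Finset.mul_sum,
    Finset.mul_sum, Finset.mul_sum, Finset.mul_sum]
  refine Finset.sum_congr rfl fun d _ => ?_
  by_cases h1 : nm d ≤ L
  · by_cases h2 : d ∣ (x : O)
    · rw [if_pos ⟨h2, h1⟩, if_pos h1, conj_mu]
      by_cases h3 : IsCoprime (x : O) b₁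
      · rw [if_pos ⟨h3, h2⟩]
        rw [if_pos h3] at hk
        rw [← hk]; push_cast; ring
      · rw [if_neg fun h => h3 h.1, cb_eq_zero_of_not_coprime h3]
        simp
    · rw [if_neg fun h => h2 h.1, if_pos h1, if_neg fun h => h2 h.2]
      simp
  · rw [if_neg fun h => h1 h.2, if_neg h1]
    simp

open Classical in
/-- write `b₂ = g b'` with `g = (b₂, b₁)` (`Prim.exists_gcd`), or induct on `b₂` -/
theorem dic_Phi {b₁ b₂ : O} (h₁ : PSq b₁) (h₂ : PSq b₂) :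
    (Phi b₁ : ℂ) * ∑ d ∈ pdiv b₂, (if IsCoprime d b₁ then mu d / (nm d : ℂ) else 0) = Phi (b₁ * b₂) := by
  obtain ⟨g, a', b', hg, ha', e₂, e₁, hc⟩ := h₂.1.exists_gcd b₁
  have hga : IsCoprime g a' := ((psq_mul_iff hg ha').1 (e₂ ▸ h₂)).2.2
  have hab : IsCoprime a' b₁ := by rw [e₁]; exact hga.symm.mul_right hc
  have e : (pdiv b₂).filter (fun d => IsCoprime d b₁) = pdiv a' := by
    ext d
    rw [Finset.mem_filter, mem_pdiv h₂.ne_zero, mem_pdiv ha'.ne_zero]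
    constructor
    · rintro ⟨⟨hd, h1⟩, h2⟩
      rw [e₁] at h2
      rw [e₂] at h1
      exact ⟨hd, h2.of_mul_right_left.dvd_of_dvd_mul_left h1⟩
    · rintro ⟨hd, h1⟩
      exact ⟨⟨hd, e₂ ▸ h1.mul_left g⟩, hab.of_isCoprime_of_dvd_left h1⟩
  rw [← Finset.sum_filter, e, ← Phi_eq_sum ha'.ne_zero, ← Complex.ofReal_mul,
    ← Phi_mul h₁.ne_zero ha'.ne_zero hab.symm]
  congr 1
  refine Phi_congr (mul_ne_zero h₁.ne_zero ha'.ne_zero) (mul_ne_zero h₁.ne_zero h₂.ne_zero)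
    fun p hp _ => ?_
  rw [e₂, hp.dvd_mul, hp.dvd_mul, hp.dvd_mul]
  constructor
  · rintro (h | h)
    · exact Or.inl h
    · exact Or.inr (Or.inr h)
  · rintro (h | h | h)
    · exact Or.inl h
    · exact Or.inl (e₁ ▸ h.mul_right b')
    · exact Or.inr h

open Classical in
/-- one pair `(b₁, b₂)`: `di_U_sub` for `N d ≤ L`, `(d, b₁) = 1`, `d` squarefree; the tail `N d > L` of
`dic_Phi` is at most `d(b₂) / L`. -/
theorem dic_pair (h' : StI0) {ε : ℝ} (hε : 0 < ε) : ∃ C : ℝ, 0 < C ∧ ∀ (Z a A X L : ℝ) (b₁ b₂ : O), 2 ≤ Z →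
    Z⁻¹ ≤ a → a ≤ 1 → 1 ≤ A → 0 < L → PSq b₁ → PSq b₂ → nm b₁ ≤ X → 2 * X ^ 2 ≤ Z → A * X ≤ Z → X * L ≤ Z →
    ‖(∑ d ∈ pdiv b₂, if nm d ≤ L then mu d * diU a A b₁ d else 0) -
        ((cP * rho0 * A ^ (2 / 3 : ℝ) * (n6 b₁ * Phi (b₁ * b₂)) : ℝ) : ℂ) * LNt a (2 / 3)‖ ≤
      C * dn b₁ * dn b₂ * (Z ^ ε * A ^ (-(1 : ℝ) / 6) * (Real.sqrt A + Real.sqrt (X * L / a ^ 3)) +
        A ^ (2 / 3 : ℝ) * n6 b₁ / L) := by
  obtain ⟨C, hC, hU⟩ := di_U_sub h' hε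
  have hc := cP_pos
  have hr := rho0_pos
  refine ⟨C + cP * rho0 * 9, by positivity, ?_⟩
  intro Z a A X L b₁ b₂ hZ ha ha1 hA hL h₁ h₂ hX hZ1 hZ2 hZ3
  have hZ0 : 0 < Z := by linarith
  have ha0 : 0 < a := (inv_pos.2 hZ0).trans_le ha
  have hA0 : 0 < A := by linarith
  have hn1 := nm_nonneg b₁
  have hd1 := one_le_dn h₁.ne_zero
  have hn6 := n6_nonneg b₁
  obtain ⟨T₁, hT₁⟩ : ∃ T : ℝ,
      T = Z ^ ε * A ^ (-(1 : ℝ) / 6) * (Real.sqrt A + Real.sqrt (X * L / a ^ 3)) := ⟨_, rfl⟩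
  obtain ⟨T₂, hT₂⟩ : ∃ T : ℝ, T = A ^ (2 / 3 : ℝ) * n6 b₁ / L := ⟨_, rfl⟩
  have p₁ : 0 ≤ T₁ := by rw [hT₁]; positivity
  have p₂ : 0 ≤ T₂ := by rw [hT₂]; positivity
  rw [← hT₁, ← hT₂]
  have e : ((cP * rho0 * A ^ (2 / 3 : ℝ) * (n6 b₁ * Phi (b₁ * b₂)) : ℝ) : ℂ) * LNt a (2 / 3) =
      ∑ d ∈ pdiv b₂, if IsCoprime d b₁ then mu d *
        (((cP * rho0 * A ^ (2 / 3 : ℝ) * (n6 b₁ * Phi b₁ / nm d) : ℝ) : ℂ) * LNt a (2 / 3)) else 0 := by
    rw [Complex.ofReal_mul, Complex.ofReal_mul (n6 b₁), ← dic_Phi h₁ h₂, Finset.mul_sum, Finset.mul_sum,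
      Finset.mul_sum, Finset.sum_mul]
    refine Finset.sum_congr rfl fun d _ => ?_
    split_ifs
    · push_cast; ring
    · simp
  rw [e, ← Finset.sum_sub_distrib]
  refine (norm_sum_le _ _).trans ?_
  have key : ∀ d ∈ pdiv b₂, ‖(if nm d ≤ L then mu d * diU a A b₁ d else 0) -
      if IsCoprime d b₁ then mu d *
        (((cP * rho0 * A ^ (2 / 3 : ℝ) * (n6 b₁ * Phi b₁ / nm d) : ℝ) : ℂ) * LNt a (2 / 3)) else 0‖ ≤
      (C + cP * rho0 * 9) * dn b₁ * (T₁ + T₂) := by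
    intro d hd
    obtain ⟨hd, hdb⟩ := (mem_pdiv h₂.ne_zero).1 hd
    have hs : PSq d := ⟨hd, h₂.2.squarefree_of_dvd hdb⟩
    have hnd := nm_pos hd.ne_zero
    have h0 : 0 ≤ (C + cP * rho0 * 9) * dn b₁ * (T₁ + T₂) := by positivity
    by_cases hco : IsCoprime d b₁
    · rw [if_pos hco]
      by_cases hdL : nm d ≤ L
      · rw [if_pos hdL, ← mul_sub, norm_mul]
        have hbd : nm b₁ * nm d ≤ X * L := mul_le_mul hX hdL hnd.le (hn1.trans hX)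
        have h1 := hU Z a A b₁ d hZ ha ha1 hA h₁ hs hco
          (le_trans (by gcongr) hZ1) (le_trans (by gcongr) hZ2) (hbd.trans hZ3)
        have h2 : C * Z ^ ε * dn b₁ * A ^ (-(1 : ℝ) / 6) *
            (Real.sqrt A + Real.sqrt (nm b₁ * nm d / a ^ 3)) ≤ C * dn b₁ * T₁ := by
          rw [hT₁]
          calc _ ≤ C * Z ^ ε * dn b₁ * A ^ (-(1 : ℝ) / 6) *
                (Real.sqrt A + Real.sqrt (X * L / a ^ 3)) := by gcongr
            _ = _ := by ring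
        refine (mul_le_of_le_one_left (norm_nonneg _) (norm_mu_le d)).trans ((h1.trans h2).trans ?_)
        gcongr
        · linarith [show 0 ≤ cP * rho0 * 9 by positivity]
        · linarith
      · rw [if_neg hdL, zero_sub, norm_neg, norm_mul, norm_mul, Complex.norm_real]
        have hΦ := Phi_pos b₁
        have hΦ1 := Phi_le_one b₁
        have h9 := di_LNt_le ha0 ha1 (s := 2 / 3) (by norm_num [abs_of_pos])
        rw [Real.norm_of_nonneg (by positivity)]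
        refine (mul_le_of_le_one_left (by positivity) (norm_mu_le d)).trans ?_
        calc cP * rho0 * A ^ (2 / 3 : ℝ) * (n6 b₁ * Phi b₁ / nm d) * ‖LNt a (2 / 3)‖
            ≤ cP * rho0 * A ^ (2 / 3 : ℝ) * (n6 b₁ * 1 / L) * 9 := by
              gcongr
              exact (not_le.1 hdL).le
          _ = cP * rho0 * 9 * 1 * T₂ := by rw [hT₂]; ring
          _ ≤ _ := by
              gcongr
              · linarith
              · linarith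
    · rw [if_neg hco, di_U_zero a A hco, mul_zero, ite_self, sub_zero, norm_zero]
      exact h0
  refine (Finset.sum_le_sum key).trans (le_of_eq ?_)
  rw [Finset.sum_const, nsmul_eq_mul, show ((pdiv b₂).card : ℝ) = dn b₂ from rfl]
  ring

theorem di_CT_sub (h' : StI0) {ε : ℝ} (hε : 0 < ε) : ∃ C : ℝ, 0 < C ∧ ∀ (Z a A B X L : ℝ) (γ : O → ℂ),
    2 ≤ Z → Z⁻¹ ≤ a → a ≤ 1 → 1 ≤ A → 0 < B → 0 < L → Supp γ B X → 2 * X ^ 2 ≤ Z → A * X ≤ Z → X * L ≤ Z →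
    ‖diCT L a A γ X - MN a A γ X‖ ≤ C * (Z ^ ε * A ^ (-(1 : ℝ) / 6) * B ^ (-(1 : ℝ) / 6) *
      (Real.sqrt A + Real.sqrt (X * L / a ^ 3)) + A ^ (2 / 3 : ℝ) * B ^ (-(1 / 3) : ℝ) / L) * diS γ X ^ 2 := by
  classical
  obtain ⟨C, hC, h⟩ := dic_pair h' hε
  refine ⟨2 * C, by positivity, fun Z a A B X L γ hZ haZ ha1 hA hB hL hγ hX hAX hXL => ?_⟩
  have hZ0 : 0 < Z := by linarith
  have ha : 0 < a := lt_of_lt_of_le (inv_pos.2 hZ0) haZ
  have hA0 : 0 < A := by linarith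
  set E₁ : ℝ := Z ^ ε * A ^ (-(1 : ℝ) / 6) * (Real.sqrt A + Real.sqrt (X * L / a ^ 3)) with hE₁
  have hE0 : 0 ≤ E₁ := by positivity
  set β : ℝ := B ^ (-(1 : ℝ) / 6) with hβ
  have hβ0 : 0 ≤ β := by positivity
  have hββ : B ^ (-(1 / 3) : ℝ) = β * β := by
    rw [hβ, ← Real.rpow_add hB]; norm_num
  set P : ℝ := A ^ (2 / 3 : ℝ) with hP
  have hP0 : 0 ≤ P := by positivity
  rw [di_CT_eq ha hA0 hγ L, MN, Finset.mul_sum, ← Finset.sum_sub_distrib]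
  have key : ∀ b₁ ∈ ball X, ‖(∑ b₂ ∈ ball X, γ b₁ * conj (γ b₂) * ((cP * n6 b₂ : ℝ) : ℂ) *
        ∑ d ∈ pdiv b₂, if nm d ≤ L then mu d * diU a A b₁ d else 0) -
      ((cP ^ 2 * rho0 * P : ℝ) : ℂ) * LNt a (2 / 3) *
        ∑ b₂ ∈ ball X, γ b₁ * conj (γ b₂) * ((n6 b₁ * n6 b₂ * Phi (b₁ * b₂) : ℝ) : ℂ)‖ ≤
      ∑ b₂ ∈ ball X, 2 * C * (β * (E₁ + P * β / L)) * ((‖γ b₁‖ * dn b₁) * (‖γ b₂‖ * dn b₂)) := by
    intro b₁ _
    rw [Finset.mul_sum, ← Finset.sum_sub_distrib]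
    refine (norm_sum_le _ _).trans (Finset.sum_le_sum fun b₂ _ => ?_)
    by_cases h1 : γ b₁ = 0
    · simp [h1]
    by_cases h2 : γ b₂ = 0
    · simp [h2]
    obtain ⟨p1, q1, r1⟩ := hγ b₁ h1
    obtain ⟨p2, q2, -⟩ := hγ b₂ h2
    have hb := h Z a A X L b₁ b₂ hZ haZ ha1 hA hL p1 p2 r1 hX hAX hXL
    have e : γ b₁ * conj (γ b₂) * ((cP * n6 b₂ : ℝ) : ℂ) *
          (∑ d ∈ pdiv b₂, if nm d ≤ L then mu d * diU a A b₁ d else 0) -
        ((cP ^ 2 * rho0 * P : ℝ) : ℂ) * LNt a (2 / 3) *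
          (γ b₁ * conj (γ b₂) * ((n6 b₁ * n6 b₂ * Phi (b₁ * b₂) : ℝ) : ℂ)) =
        γ b₁ * conj (γ b₂) * ((cP * n6 b₂ : ℝ) : ℂ) *
          ((∑ d ∈ pdiv b₂, if nm d ≤ L then mu d * diU a A b₁ d else 0) -
            ((cP * rho0 * P * (n6 b₁ * Phi (b₁ * b₂)) : ℝ) : ℂ) * LNt a (2 / 3)) := by
      push_cast; ring
    rw [e, norm_mul, norm_mul, norm_mul, RCLike.norm_conj, Complex.norm_real,
      Real.norm_of_nonneg (mul_nonneg cP_pos.le (n6_nonneg b₂))]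
    have n1 : n6 b₁ ≤ β := n6_le hB q1.le
    have n2 : n6 b₂ ≤ β := n6_le hB q2.le
    have d1 := dn_nonneg b₁
    have d2 := dn_nonneg b₂
    have c1 : cP * n6 b₂ ≤ 2 * β := mul_le_mul cP_le n2 (n6_nonneg _) zero_le_two
    have c2 : C * dn b₁ * dn b₂ * (E₁ + P * n6 b₁ / L) ≤ C * dn b₁ * dn b₂ * (E₁ + P * β / L) := by
      gcongr
    calc _ ≤ ‖γ b₁‖ * ‖γ b₂‖ * (2 * β) * (C * dn b₁ * dn b₂ * (E₁ + P * β / L)) := by
          refine mul_le_mul ?_ (hb.trans c2) (norm_nonneg _) (by positivity)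
          gcongr
      _ = _ := by ring
  refine (norm_sum_le _ _).trans ((Finset.sum_le_sum key).trans (le_of_eq ?_))
  rw [diS, sq, Finset.sum_mul_sum, Finset.mul_sum]
  refine Finset.sum_congr rfl fun b₁ _ => ?_
  rw [Finset.mul_sum]
  refine Finset.sum_congr rfl fun b₂ _ => ?_
  rw [hββ, hE₁]; ring

end Crest.Agent.R12
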