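import Crest.Agent.R12.Base.All

/-! Row 12, block DI (`StPOc → StI0 → StT3 → StVar`), definitions.  Owner: helper53.

`VR = EN - 2 Re diC + diT`; each of `EN`, `diC`, `diT` is `MN` up to a small error. -/

set_option autoImplicit false

namespace Crest.Agent.R12

open Crest.Agent.R17
open scoped ComplexConjugate

open Classical in
/-- `YM` with the Möbius sum for `(b, x) = 1` cut at `L` -/
noncomputable def diY (L : ℝ) (γ : O → ℂ) (X : ℝ) (x : O) : ℂ :=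
  ∑ b ∈ ball X, γ b * (n6 b : ℂ) * ∑ d ∈ pdiv b, if d ∣ x ∧ nm d ≤ L then mu d else 0

/-- the truncated model -/
noncomputable def diM (L : ℝ) (γ : O → ℂ) (X : ℝ) (x : O) : ℂ :=
  ((cP * n6 x : ℝ) : ℂ) * conj (TC x) * diY L γ X x

/-- the cross term -/
noncomputable def diC (a A : ℝ) (γ : O → ℂ) (X : ℝ) : ℂ :=
  ∑' x : Pr, (LW a A (nm x) : ℂ) * (XG γ X x * conj (Md γ X x))

/-- the truncated cross term -/
noncomputable def diCT (L a A : ℝ) (γ : O → ℂ) (X : ℝ) : ℂ :=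
  ∑' x : Pr, (LW a A (nm x) : ℂ) * (XG γ X x * conj (diM L γ X x))

/-- the energy of the model -/
noncomputable def diT (a A : ℝ) (γ : O → ℂ) (X : ℝ) : ℝ :=
  ∑' x : Pr, LW a A (nm x) * ‖Md γ X x‖ ^ 2

/-- the energy of the truncation error -/
noncomputable def diD (L a A : ℝ) (γ : O → ℂ) (X : ℝ) : ℝ :=
  ∑' x : Pr, LW a A (nm x) * ‖Md γ X x - diM L γ X x‖ ^ 2

/-- the `ℓ¹` norm with a divisor weight -/
noncomputable def diS (γ : O → ℂ) (X : ℝ) : ℝ := ∑ b ∈ ball X, ‖γ b‖ * dn b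

open Classical in
/-- the row sum of the cross term -/
noncomputable def diU (a A : ℝ) (b d : O) : ℂ :=
  ∑' x : Pr, if IsCoprime (x : O) b ∧ d ∣ (x : O) then
    TC (x * b) * (n6 x : ℂ) * (LW a A (nm x) : ℂ) else 0

theorem diS_nonneg (γ : O → ℂ) (X : ℝ) : 0 ≤ diS γ X :=
  Finset.sum_nonneg fun b _ => mul_nonneg (norm_nonneg _) (dn_nonneg b)

/-- bounded functions are summable against the weight -/
theorem di_summ {a A : ℝ} (ha : 0 < a) (hA : 0 < A) {f : O → ℂ} {M : ℝ} (hf : ∀ x, Prim x → ‖f x‖ ≤ M) :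
    Summable fun x : Pr => (LW a A (nm x) : ℂ) * f x := by
  have := summable_LW_pr ha hA (f := f) (M := M) (θ := 0) fun n hn => by simpa using hf n hn
  exact (this.of_norm).congr fun x => mul_comm _ _

theorem di_n6_TC (x : O) : n6 x * ‖TC x‖ ≤ 1 := by
  rcases eq_or_ne x 0 with rfl | hx
  · rw [n6, nm_zero, Real.zero_rpow (by norm_num), zero_mul]
    exact zero_le_one
  calc _ ≤ n6 x * nm x ^ (1 / 6 : ℝ) := mul_le_mul_of_nonneg_left (norm_TC_le x) (n6_nonneg x)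
    _ = 1 := by
      rw [n6, ← Real.rpow_add (nm_pos hx)]
      norm_num

theorem di_XG_bdd (γ : O → ℂ) (X : ℝ) : ∃ M : ℝ, ∀ x, ‖XG γ X x‖ ≤ M := by
  refine ⟨∑ b ∈ ball X, ‖γ b * GG b‖, fun x => (norm_sum_le _ _).trans (Finset.sum_le_sum fun b _ => ?_)⟩
  rw [norm_mul, RCLike.norm_conj]
  exact mul_le_of_le_one_right (norm_nonneg _) (norm_cb_le _ _)

theorem di_model_le (x : O) (y : ℂ) : ‖((cP * n6 x : ℝ) : ℂ) * conj (TC x) * y‖ ≤ 2 * ‖y‖ := by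
  rw [norm_mul, norm_mul, RCLike.norm_conj, Complex.norm_real,
    Real.norm_of_nonneg (mul_nonneg cP_pos.le (n6_nonneg x)), mul_assoc cP]
  refine mul_le_mul_of_nonneg_right ?_ (norm_nonneg _)
  exact (mul_le_of_le_one_right cP_pos.le (di_n6_TC x)).trans cP_le

theorem di_Md_bdd (γ : O → ℂ) (X : ℝ) : ∃ M : ℝ, ∀ x, ‖Md γ X x‖ ≤ M := by
  refine ⟨2 * ∑ b ∈ ball X, ‖γ b * (n6 b : ℂ)‖, fun x => (di_model_le x _).trans ?_⟩
  refine mul_le_mul_of_nonneg_left ((norm_sum_le _ _).trans (Finset.sum_le_sum fun b _ => ?_)) zero_le_two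
  split_ifs
  · exact le_rfl
  · rw [norm_zero]; exact norm_nonneg _

theorem di_M_bdd (L : ℝ) (γ : O → ℂ) (X : ℝ) : ∃ M : ℝ, ∀ x, ‖diM L γ X x‖ ≤ M := by
  refine ⟨2 * ∑ b ∈ ball X, ‖γ b * (n6 b : ℂ)‖ * dn b, fun x => (di_model_le x _).trans ?_⟩
  refine mul_le_mul_of_nonneg_left ((norm_sum_le _ _).trans (Finset.sum_le_sum fun b _ => ?_)) zero_le_two
  rw [norm_mul]
  refine mul_le_mul_of_nonneg_left ((norm_sum_le _ _).trans ?_) (norm_nonneg _)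
  rw [dn, Finset.card_eq_sum_ones, Nat.cast_sum]
  refine Finset.sum_le_sum fun d _ => ?_
  split_ifs
  · simpa using norm_mu_le d
  · simp

/-- `‖LNt a s‖ ≤ 9` for `|Re s| ≤ 1` -/
theorem di_LNt_le {a : ℝ} (ha : 0 < a) (h1 : a ≤ 1) {s : ℂ} (hs : |s.re| ≤ 1) : ‖LNt a s‖ ≤ 9 := by
  rw [norm_LNt ha.le]
  have h2 : √(2 * Real.pi) ≤ 3 := by
    rw [Real.sqrt_le_iff]
    exact ⟨by norm_num, by linarith [Real.pi_le_four]⟩
  have h3 : Real.exp (a ^ 2 * s.re ^ 2 / 2) ≤ 3 := by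
    have h4 : s.re ^ 2 ≤ 1 := by rwa [sq_le_one_iff_abs_le_one]
    have h5 : a ^ 2 ≤ 1 := pow_le_one₀ ha.le h1
    have h6 : a ^ 2 * s.re ^ 2 ≤ 1 := mul_le_one₀ h5 (sq_nonneg _) h4
    exact (Real.exp_le_exp.2 (by linarith)).trans (Real.exp_one_lt_d9.le.trans (by norm_num))
  have h4 : Real.exp (-(a ^ 2 / 2) * s.im ^ 2) ≤ 1 :=
    Real.exp_le_one_iff.2 (by nlinarith [sq_nonneg a, sq_nonneg s.im, mul_nonneg (sq_nonneg a) (sq_nonneg s.im)])
  calc √(2 * Real.pi) * a * Real.exp (a ^ 2 * s.re ^ 2 / 2) * Real.exp (-(a ^ 2 / 2) * s.im ^ 2)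
      ≤ 3 * 1 * 3 * 1 := by gcongr
    _ = 9 := by norm_num

end Crest.Agent.R12
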