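import Crest.Agent.R12.DI.Defs

/-! Row 12, block DI: expansion of the variance and the trivial bounds.  Prefix for helper lemmas: `die_`. -/

set_option autoImplicit false

namespace Crest.Agent.R12

open Crest.Agent.R17
open scoped ComplexConjugate

theorem die_a_summ {a A : ℝ} (ha : 0 < a) (hA : 0 < A) {f g : O → ℂ} (hf : ∃ M : ℝ, ∀ x, ‖f x‖ ≤ M)
    (hg : ∃ M : ℝ, ∀ x, ‖g x‖ ≤ M) :
    Summable fun x : Pr => (LW a A (nm x) : ℂ) * (f x * conj (g x)) := by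
  obtain ⟨M, hM⟩ := hf
  obtain ⟨M', hM'⟩ := hg
  refine di_summ (f := fun x => f x * conj (g x)) (M := M * M') ha hA fun x _ => ?_
  rw [norm_mul, RCLike.norm_conj]
  exact mul_le_mul (hM x) (hM' x) (norm_nonneg _) ((norm_nonneg _).trans (hM x))

theorem die_a_sq (u v : ℂ) : ‖u - v‖ ^ 2 = ‖u‖ ^ 2 - 2 * (u * conj v).re + ‖v‖ ^ 2 := by
  simp only [Complex.sq_norm, Complex.normSq_sub]
  ring

/-- `‖u - v‖² = ‖u‖² - 2 Re (u conj v) + ‖v‖²` under the sum (`di_summ`, everything is bounded), then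
`VR = Re (EN - M) - 2 Re (diC - M) + Re (diT - M)`. -/
theorem di_VR_le {a A : ℝ} (ha : 0 < a) (hA : 0 < A) (γ : O → ℂ) (X : ℝ) (M : ℂ) :
    VR a A γ X ≤ ‖(EN a A γ X : ℂ) - M‖ + 2 * ‖diC a A γ X - M‖ + ‖(diT a A γ X : ℂ) - M‖ := by
  have h1 := summable_EN ha hA γ X
  have h2 := die_a_summ ha hA (di_XG_bdd γ X) (di_Md_bdd γ X)
  obtain ⟨M', hM'⟩ := di_Md_bdd γ X
  have h3 := bl_d_bdd (f := Md γ X) ha hA fun x _ => hM' x
  have h4 := (h1.hasSum.sub ((Complex.hasSum_re h2.hasSum).mul_left 2)).add h3.hasSum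
  have h5 : VR a A γ X = EN a A γ X - 2 * (diC a A γ X).re + diT a A γ X := by
    refine Eq.trans (tsum_congr fun x => ?_) h4.tsum_eq
    simp only [die_a_sq, Complex.re_ofReal_mul]
    ring
  have a1 := Complex.re_le_norm ((EN a A γ X : ℂ) - M)
  have a2 := (neg_le_abs _).trans (Complex.abs_re_le_norm (diC a A γ X - M))
  have a3 := Complex.re_le_norm ((diT a A γ X : ℂ) - M)
  simp only [Complex.sub_re, Complex.ofReal_re] at a1 a2 a3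
  linarith

/-- pointwise `‖u‖ ‖v‖ ≤ δ ‖u‖² + δ⁻¹ ‖v‖²` -/
theorem di_C_sub {a A δ : ℝ} (ha : 0 < a) (hA : 0 < A) (hδ : 0 < δ) (L : ℝ) (γ : O → ℂ) (X : ℝ) :
    ‖diC a A γ X - diCT L a A γ X‖ ≤ δ * EN a A γ X + δ⁻¹ * diD L a A γ X := by
  have h1 := summable_EN ha hA γ X
  have h2 := die_a_summ ha hA (di_XG_bdd γ X) (di_Md_bdd γ X)
  have h3 := die_a_summ ha hA (di_XG_bdd γ X) (di_M_bdd L γ X)
  obtain ⟨M, hM⟩ := di_Md_bdd γ X
  obtain ⟨M', hM'⟩ := di_M_bdd L γ X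
  have h4 := bl_d_bdd (f := fun x => Md γ X x - diM L γ X x) ha hA fun x _ =>
    (norm_sub_le _ _).trans (add_le_add (hM x) (hM' x))
  refine (h2.hasSum.sub h3.hasSum).norm_le_of_bounded
    ((h1.hasSum.mul_left δ).add (h4.hasSum.mul_left δ⁻¹)) fun x => ?_
  rw [← mul_sub, ← mul_sub, ← map_sub, norm_mul, norm_mul, RCLike.norm_conj, Complex.norm_real,
    Real.norm_of_nonneg (LW_pos _ _ _).le, mul_left_comm δ, mul_left_comm δ⁻¹, ← mul_add]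
  refine mul_le_mul_of_nonneg_left ?_ (LW_pos _ _ _).le
  have h5 := two_mul_le_add_mul_sq (a := ‖XG γ X x‖) (b := ‖Md γ X x - diM L γ X x‖) hδ
  have h6 := mul_nonneg (norm_nonneg (XG γ X x)) (norm_nonneg (Md γ X x - diM L γ X x))
  linarith

/-- `‖γ b‖ d(b) ≤ d(b)^(k+1) ≤ C N(b)^ε`, `card_le_of_nm_le` -/
theorem di_S_le (k : ℕ) {ε : ℝ} (hε : 0 < ε) : ∃ C : ℝ, 0 < C ∧ ∀ (γ : O → ℂ) (X Z : ℝ), 0 ≤ X → X ≤ Z →
    Dv k γ → diS γ X ≤ C * Z ^ ε * X := by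
  classical
  obtain ⟨C, hC, h⟩ := dn_succ_pow_le k hε
  refine ⟨11 * C, by positivity, fun γ X Z hX hXZ hγ => ?_⟩
  have h1 : diS γ X = ∑ b ∈ (ball X).filter (· ≠ 0), ‖γ b‖ * dn b := by
    refine (Finset.sum_filter_of_ne fun b _ hb => ?_).symm
    rintro rfl
    exact hb (by rw [dn_zero, mul_zero])
  have h2 : ∀ b ∈ (ball X).filter (· ≠ 0), ‖γ b‖ * dn b ≤ C * Z ^ ε := fun b hb => by
    have h3 := mem_ball.1 (Finset.mem_filter.1 hb).1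
    calc ‖γ b‖ * dn b ≤ dn b ^ k * dn b := mul_le_mul_of_nonneg_right (hγ b) (dn_nonneg b)
      _ ≤ C * nm b ^ ε := by rw [← pow_succ]; exact h b
      _ ≤ C * Z ^ ε := mul_le_mul_of_nonneg_left
          (Real.rpow_le_rpow (nm_nonneg b) (h3.trans hXZ) hε.le) hC.le
  have h3 := card_le_of_nm_le hX (A := (ball X).filter (· ≠ 0)) fun b hb =>
    ⟨(Finset.mem_filter.1 hb).2, mem_ball.1 (Finset.mem_filter.1 hb).1⟩
  have h4 := Finset.sum_le_card_nsmul _ _ _ h2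
  have h5 : 0 ≤ C * Z ^ ε := mul_nonneg hC.le (Real.rpow_nonneg (hX.trans hXZ) _)
  rw [nsmul_eq_mul] at h4
  rw [h1]
  exact h4.trans ((mul_le_mul_of_nonneg_right h3 h5).trans_eq (by ring))

theorem die_a_Phi (h : O) : |Phi h| ≤ 1 := (abs_of_pos (Phi_pos h)).trans_le (Phi_le_one h)

/-- `Phi ≤ 1`, `n6 b ≤ B^(-1/6)`, `1 ≤ d(b)`, `di_LNt_le` -/
theorem di_MN_le : ∃ C : ℝ, 0 < C ∧ ∀ (a A B X : ℝ) (γ : O → ℂ), 0 < a → a ≤ 1 → 0 < A → 0 < B →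
    Supp γ B X → ‖MN a A γ X‖ ≤ C * A ^ (2 / 3 : ℝ) * B ^ (-(1 / 3) : ℝ) * diS γ X ^ 2 := by
  have hc := cP_pos
  have hr := rho0_pos
  refine ⟨cP ^ 2 * rho0 * 9, by positivity, fun a A B X γ ha h1 hA hB hγ => ?_⟩
  have h2 : ∀ b, ‖γ b‖ * n6 b ≤ B ^ (-(1 : ℝ) / 6) * (‖γ b‖ * dn b) := fun b => by
    rcases eq_or_ne (γ b) 0 with h | h
    · simp [h]
    obtain ⟨h3, h4, -⟩ := hγ b h
    rw [mul_comm]
    exact mul_le_mul (n6_le hB h4.le) (le_mul_of_one_le_right (norm_nonneg _) (one_le_dn h3.ne_zero))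
      (norm_nonneg _) (by positivity)
  have h3 : ∑ b ∈ ball X, ‖γ b‖ * n6 b ≤ B ^ (-(1 : ℝ) / 6) * diS γ X := by
    rw [diS, Finset.mul_sum]
    exact Finset.sum_le_sum fun b _ => h2 b
  have h4 : 0 ≤ ∑ b ∈ ball X, ‖γ b‖ * n6 b :=
    Finset.sum_nonneg fun b _ => mul_nonneg (norm_nonneg _) (n6_nonneg b)
  have h5 : ‖∑ b₁ ∈ ball X, ∑ b₂ ∈ ball X,
      γ b₁ * conj (γ b₂) * ((n6 b₁ * n6 b₂ * Phi (b₁ * b₂) : ℝ) : ℂ)‖ ≤
      B ^ (-(1 / 3) : ℝ) * diS γ X ^ 2 := by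
    calc _ ≤ (∑ b ∈ ball X, ‖γ b‖ * n6 b) * ∑ b ∈ ball X, ‖γ b‖ * n6 b := by
          rw [Finset.sum_mul_sum]
          refine (norm_sum_le _ _).trans (Finset.sum_le_sum fun b₁ _ =>
            (norm_sum_le _ _).trans (Finset.sum_le_sum fun b₂ _ => ?_))
          have h6 := mul_nonneg (n6_nonneg b₁) (n6_nonneg b₂)
          rw [norm_mul, norm_mul, RCLike.norm_conj, Complex.norm_real, Real.norm_eq_abs, abs_mul,
            abs_of_nonneg h6, mul_mul_mul_comm ‖γ b₁‖ (n6 b₁)]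
          exact mul_le_mul_of_nonneg_left (mul_le_of_le_one_right h6 (die_a_Phi _)) (by positivity)
      _ ≤ B ^ (-(1 : ℝ) / 6) * diS γ X * (B ^ (-(1 : ℝ) / 6) * diS γ X) :=
          mul_le_mul h3 h3 h4 (h4.trans h3)
      _ = _ := by
          rw [mul_mul_mul_comm, ← Real.rpow_add hB, ← sq]
          norm_num
  have h6 : ‖LNt a (2 / 3)‖ ≤ 9 := di_LNt_le ha h1 (by
    rw [show (2 / 3 : ℂ) = ((2 / 3 : ℝ) : ℂ) by push_cast; rfl, Complex.ofReal_re]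
    rw [abs_of_nonneg (by norm_num)]
    norm_num)
  have h7 : 0 ≤ cP ^ 2 * rho0 * A ^ (2 / 3 : ℝ) := by positivity
  rw [MN, norm_mul, norm_mul, Complex.norm_real, Real.norm_of_nonneg h7]
  exact (mul_le_mul (mul_le_mul_of_nonneg_left h6 h7) h5 (norm_nonneg _) (by positivity)).trans_eq
    (by ring)

/-- `sum_mu_coprime`: `YM - diY = ∑_b γ b n6 b ∑_{d ∣ b, d ∣ x, N d > L} μ(d)`; exchange, `d ∈ pdiv x`,
`card_dvd_le` for the `b`, `dn_pow_le`. -/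
theorem di_Y_sub (k : ℕ) {ε : ℝ} (hε : 0 < ε) : ∃ C : ℝ, 0 < C ∧ ∀ (γ : O → ℂ) (B X L Z : ℝ) (x : O),
    0 < B → 0 ≤ X → X ≤ Z → 0 < L → Supp γ B X → Dv k γ → x ≠ 0 →
    ‖YM γ X x - diY L γ X x‖ ≤ C * Z ^ ε * B ^ (-(1 : ℝ) / 6) * (X / L) * dn x := by
  classical
  obtain ⟨C, hC, hdn⟩ := dn_pow_le k hε
  refine ⟨C * 11, by positivity, fun γ B X L Z x hB hX hXZ hL hγ hD hx => ?_⟩
  have hZ : 0 ≤ Z := hX.trans hXZ
  set K : ℝ := C * Z ^ ε * B ^ (-(1 : ℝ) / 6) with hK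
  have hK0 : 0 ≤ K := by positivity
  set T : Finset O := (pdiv x).filter fun d => L < nm d with hT
  have h1 : ‖YM γ X x - diY L γ X x‖ ≤
      ∑ b ∈ ball X, ∑ d ∈ T, if b ≠ 0 ∧ d ∣ b then K else 0 := by
    unfold YM diY
    rw [← Finset.sum_sub_distrib]
    refine (norm_sum_le _ _).trans (Finset.sum_le_sum fun b hb => ?_)
    have hnn : 0 ≤ ∑ d ∈ T, if b ≠ 0 ∧ d ∣ b then K else 0 :=
      Finset.sum_nonneg fun d _ => by split_ifs <;> simp [hK0]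
    by_cases hγb : γ b = 0
    · simpa [hγb] using hnn
    obtain ⟨hb1, hb2, hb3⟩ := hγ b hγb
    have e : (if IsCoprime b x then γ b * (n6 b : ℂ) else 0) =
        γ b * (n6 b : ℂ) * ∑ d ∈ pdiv b, if d ∣ x then mu d else 0 := by
      rw [sum_mu_coprime hb1.1 x]
      split_ifs <;> simp
    have e2 : (∑ d ∈ pdiv b, if d ∣ x then mu d else 0) -
        (∑ d ∈ pdiv b, if d ∣ x ∧ nm d ≤ L then mu d else 0) =
        ∑ d ∈ (pdiv b).filter (fun d => d ∣ x ∧ L < nm d), mu d := by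
      rw [← Finset.sum_sub_distrib, Finset.sum_filter]
      refine Finset.sum_congr rfl fun d _ => ?_
      by_cases h1 : d ∣ x <;> by_cases h2 : nm d ≤ L
      · simp [h1, h2]
      · simp [h1, h2, not_le.1 h2]
      · simp [h1]
      · simp [h1]
    rw [e, ← mul_sub, e2, norm_mul]
    have h2 : ‖γ b * (n6 b : ℂ)‖ ≤ K := by
      rw [norm_mul, Complex.norm_real, Real.norm_of_nonneg (n6_nonneg _), hK]
      refine mul_le_mul ((hD b).trans ((hdn b hb1.ne_zero).trans ?_)) (n6_le hB hb2.le) (n6_nonneg _) (by positivity)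
      exact mul_le_mul_of_nonneg_left
        (Real.rpow_le_rpow (nm_nonneg _) (hb3.trans hXZ) hε.le) hC.le
    have h3 : ‖∑ d ∈ (pdiv b).filter (fun d => d ∣ x ∧ L < nm d), mu d‖ ≤
        ∑ d ∈ T, if b ≠ 0 ∧ d ∣ b then (1 : ℝ) else 0 := by
      rw [← Finset.sum_filter]
      refine (norm_sum_le _ _).trans ((Finset.sum_le_sum fun d _ => norm_mu_le d).trans ?_)
      refine Finset.sum_le_sum_of_subset_of_nonneg (fun d hd => ?_) fun _ _ _ => zero_le_one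
      obtain ⟨hd1, hd2, hd3⟩ := Finset.mem_filter.1 hd
      obtain ⟨hd4, hd5⟩ := (mem_pdiv hb1.ne_zero).1 hd1
      exact Finset.mem_filter.2 ⟨Finset.mem_filter.2 ⟨(mem_pdiv hx).2 ⟨hd4, hd2⟩, hd3⟩, hb1.ne_zero, hd5⟩
    refine (mul_le_mul h2 h3 (norm_nonneg _) hK0).trans (le_of_eq ?_)
    rw [Finset.mul_sum]
    exact Finset.sum_congr rfl fun d _ => by split_ifs <;> simp
  refine h1.trans ?_
  rw [Finset.sum_comm]
  have h4 : ∀ d ∈ T, (∑ b ∈ ball X, if b ≠ 0 ∧ d ∣ b then K else 0) ≤ K * (11 * (X / L)) := by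
    intro d hd
    obtain ⟨hd1, hd2⟩ := Finset.mem_filter.1 hd
    have hd0 : d ≠ 0 := ((mem_pdiv hx).1 hd1).1.ne_zero
    rw [← Finset.sum_filter, Finset.sum_const, nsmul_eq_mul, mul_comm]
    refine mul_le_mul_of_nonneg_left ?_ hK0
    refine (card_dvd_le hX hd0 fun n hn => ?_).trans ?_
    · obtain ⟨hn1, hn2, hn3⟩ := Finset.mem_filter.1 hn
      exact ⟨hn2, hn3, mem_ball.1 hn1⟩
    · rw [mul_div_assoc]
      exact mul_le_mul_of_nonneg_left (div_le_div_of_nonneg_left hX hL hd2.le) (by norm_num)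
  refine (Finset.sum_le_sum h4).trans ?_
  rw [Finset.sum_const, nsmul_eq_mul]
  have h5 : (T.card : ℝ) ≤ dn x := by
    unfold dn
    exact_mod_cast Finset.card_filter_le _ _
  calc (T.card : ℝ) * (K * (11 * (X / L))) ≤ dn x * (K * (11 * (X / L))) :=
        mul_le_mul_of_nonneg_right h5 (by positivity)
    _ = _ := by rw [hK]; ring

/-- `LW a ≤ (LW 2)²` (`LW_mono`, `LW_sq`), `LW 2 A x · x^σ ≤ C A^σ` (`LW_mul_rpow`), `tsum_TC_sq_le` at `a = 2` -/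
theorem di_TT_le {ε : ℝ} (hε : 0 < ε) : ∃ C : ℝ, 0 < C ∧ ∀ a A : ℝ, 0 < a → a ≤ 1 → 1 ≤ A →
    (Summable fun x : Pr => LW a A (nm x) * (n6 x * ‖TC x‖ * dn x) ^ 2) ∧
    ∑' x : Pr, LW a A (nm x) * (n6 x * ‖TC x‖ * dn x) ^ 2 ≤ C * A ^ (2 / 3 + ε) := by
  obtain ⟨C₁, hC₁, hdn⟩ := dn_pow_le 2 hε
  obtain ⟨C₂, hC₂, hTC⟩ := tsum_TC_sq_le
  set σ : ℝ := -(1 / 3) + ε with hσ
  refine ⟨C₁ * Real.exp (2 ^ 2 * σ ^ 2 / 2) * C₂ * 3, by positivity, fun a A ha ha1 hA => ?_⟩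
  have hA0 : 0 < A := by linarith
  obtain ⟨hs, ht⟩ := hTC 2 A (by norm_num) le_rfl hA
  set K : ℝ := C₁ * (A ^ σ * Real.exp (2 ^ 2 * σ ^ 2 / 2)) with hK
  have hK0 : 0 ≤ K := by positivity
  have hterm : ∀ x : Pr, LW a A (nm x) * (n6 x * ‖TC x‖ * dn x) ^ 2 ≤
      K * (LW 2 A (nm x) * ‖TC x‖ ^ 2) := by
    intro x
    have hx : 0 < nm (x : O) := nm_pos (Pr_prim x).ne_zero
    have h1 : LW a A (nm x) ≤ LW 2 A (nm x) ^ 2 := by
      rw [LW_sq (by norm_num)]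
      refine LW_mono ha (ha1.trans ?_) _ _
      rw [le_div_iff₀ (by positivity), one_mul, Real.sqrt_le_iff]
      norm_num
    have h2 : n6 x ^ 2 * dn x ^ 2 ≤ C₁ * nm (x : O) ^ σ := by
      have e : n6 x ^ 2 = nm (x : O) ^ (-(1 / 3) : ℝ) := by
        rw [n6, ← Real.rpow_natCast, ← Real.rpow_mul hx.le]
        norm_num
      rw [e, hσ, Real.rpow_add hx]
      calc _ ≤ nm (x : O) ^ (-(1 / 3) : ℝ) * (C₁ * nm (x : O) ^ ε) :=
            mul_le_mul_of_nonneg_left (hdn x (Pr_prim x).ne_zero) (by positivity)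
        _ = _ := by ring
    have h3 : LW 2 A (nm x) * nm (x : O) ^ σ ≤ A ^ σ * Real.exp (2 ^ 2 * σ ^ 2 / 2) := by
      rw [LW_mul_rpow (by norm_num) hA0 hx]
      exact mul_le_of_le_one_right (by positivity) (LW_le_one _ _ _)
    have h4 := (LW_pos 2 A (nm (x : O))).le
    calc LW a A (nm x) * (n6 x * ‖TC x‖ * dn x) ^ 2
        = LW a A (nm x) * (n6 x ^ 2 * dn x ^ 2) * ‖TC x‖ ^ 2 := by ring
      _ ≤ LW 2 A (nm x) ^ 2 * (C₁ * nm (x : O) ^ σ) * ‖TC x‖ ^ 2 :=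
          mul_le_mul_of_nonneg_right (mul_le_mul h1 h2 (by positivity) (by positivity)) (by positivity)
      _ = C₁ * (LW 2 A (nm x) * nm (x : O) ^ σ) * (LW 2 A (nm x) * ‖TC x‖ ^ 2) := by ring
      _ ≤ _ := mul_le_mul_of_nonneg_right (mul_le_mul_of_nonneg_left h3 hC₁.le) (by positivity)
  have hnn : ∀ x : Pr, 0 ≤ LW a A (nm x) * (n6 x * ‖TC x‖ * dn x) ^ 2 := fun x =>
    mul_nonneg (LW_pos _ _ _).le (sq_nonneg _)
  have hsum := Summable.of_nonneg_of_le hnn hterm (hs.mul_left K)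
  refine ⟨hsum, (hsum.tsum_le_tsum hterm (hs.mul_left K)).trans ?_⟩
  rw [tsum_mul_left]
  have h5 : A ^ (2 / 3 : ℝ) ≤ A := by
    conv_rhs => rw [← Real.rpow_one A]
    exact Real.rpow_le_rpow_of_exponent_le hA (by norm_num)
  have h6 : A ^ σ * A = A ^ (2 / 3 + ε) := by
    rw [← Real.rpow_add_one hA0.ne', hσ]
    congr 1
    ring
  calc K * ∑' x : Pr, LW 2 A (nm x) * ‖TC x‖ ^ 2 ≤ K * (C₂ * (3 * A)) :=
        mul_le_mul_of_nonneg_left (ht.trans (mul_le_mul_of_nonneg_left (by linarith) hC₂.le)) hK0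
    _ = _ := by rw [hK, ← h6]; ring

theorem di_D_le (k : ℕ) {ε : ℝ} (hε : 0 < ε) : ∃ C : ℝ, 0 < C ∧ ∀ (a A B X L Z : ℝ) (γ : O → ℂ),
    0 < a → a ≤ 1 → 1 ≤ A → A ≤ Z → 0 < B → 0 ≤ X → X ≤ Z → 0 < L → Supp γ B X → Dv k γ →
    diD L a A γ X ≤ C * Z ^ ε * A ^ (2 / 3 : ℝ) * B ^ (-(1 / 3) : ℝ) * (X / L) ^ 2 := by
  have hε3 : 0 < ε / 3 := by positivity
  obtain ⟨C₁, hC₁, hY⟩ := di_Y_sub k hε3
  obtain ⟨C₂, hC₂, hT⟩ := di_TT_le hε3
  refine ⟨4 * C₁ ^ 2 * C₂, by positivity, fun a A B X L Z γ ha ha1 hA hAZ hB hX hXZ hL hγ hD => ?_⟩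
  obtain ⟨hs, ht⟩ := hT a A ha ha1 hA
  have hA0 : 0 < A := by linarith
  have hZ0 : 0 < Z := by linarith
  set K : ℝ := 2 * (C₁ * Z ^ (ε / 3) * B ^ (-(1 : ℝ) / 6) * (X / L)) with hK
  have hK0 : 0 ≤ K := by positivity
  have hterm : ∀ x : Pr, LW a A (nm x) * ‖Md γ X x - diM L γ X x‖ ^ 2 ≤
      K ^ 2 * (LW a A (nm x) * (n6 x * ‖TC x‖ * dn x) ^ 2) := by
    intro x
    have h1 : ‖Md γ X x - diM L γ X x‖ ≤ K * (n6 x * ‖TC x‖ * dn x) := by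
      unfold Md diM
      rw [← mul_sub, norm_mul, norm_mul, RCLike.norm_conj, Complex.norm_real,
        Real.norm_of_nonneg (mul_nonneg cP_pos.le (n6_nonneg _))]
      have h2 := hY γ B X L Z x hB hX hXZ hL hγ hD (Pr_prim x).ne_zero
      have h3 := n6_nonneg (x : O)
      calc cP * n6 x * ‖TC x‖ * ‖YM γ X x - diY L γ X x‖
          ≤ 2 * n6 x * ‖TC x‖ * (C₁ * Z ^ (ε / 3) * B ^ (-(1 : ℝ) / 6) * (X / L) * dn x) :=
            mul_le_mul (mul_le_mul_of_nonneg_right (mul_le_mul_of_nonneg_right cP_le h3) (norm_nonneg _))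
              h2 (norm_nonneg _) (by positivity)
        _ = _ := by rw [hK]; ring
    have h4 := pow_le_pow_left₀ (norm_nonneg _) h1 2
    calc _ ≤ LW a A (nm x) * (K * (n6 x * ‖TC x‖ * dn x)) ^ 2 :=
          mul_le_mul_of_nonneg_left h4 (LW_pos _ _ _).le
      _ = _ := by ring
  have hnn : ∀ x : Pr, 0 ≤ LW a A (nm x) * ‖Md γ X x - diM L γ X x‖ ^ 2 := fun x =>
    mul_nonneg (LW_pos _ _ _).le (sq_nonneg _)
  have hsum := Summable.of_nonneg_of_le hnn hterm (hs.mul_left _)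
  unfold diD
  refine (hsum.tsum_le_tsum hterm (hs.mul_left _)).trans ?_
  rw [tsum_mul_left]
  have h5 : A ^ (2 / 3 + ε / 3) ≤ A ^ (2 / 3 : ℝ) * Z ^ (ε / 3) := by
    rw [Real.rpow_add hA0]
    exact mul_le_mul_of_nonneg_left (Real.rpow_le_rpow hA0.le hAZ hε3.le) (by positivity)
  have h6 : (Z ^ (ε / 3)) ^ 3 = Z ^ ε := by
    rw [← Real.rpow_natCast, ← Real.rpow_mul hZ0.le]
    congr 1
    push_cast
    ring
  have h7 : (B ^ (-(1 : ℝ) / 6)) ^ 2 = B ^ (-(1 / 3) : ℝ) := by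
    rw [← Real.rpow_natCast, ← Real.rpow_mul hB.le]
    norm_num
  calc _ ≤ K ^ 2 * (C₂ * (A ^ (2 / 3 : ℝ) * Z ^ (ε / 3))) :=
        mul_le_mul_of_nonneg_left (ht.trans (mul_le_mul_of_nonneg_left h5 hC₂.le)) (sq_nonneg _)
    _ = _ := by rw [hK, ← h6, ← h7]; ring

end Crest.Agent.R12
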