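import Crest.Agent.R12.DI.Exp
import Crest.Agent.R12.DI.Cross

/-! Row 12, block DI: `StPOc → StI0 → StT3 → StVar`.  Prefix for helper lemmas: `dim_`. -/

set_option autoImplicit false

namespace Crest.Agent.R12

open Crest.Agent.R17
open scoped ComplexConjugate

/-- the monomial `(A B)^r A^p B^q` -/
noncomputable def dimM (A B r p q : ℝ) : ℝ := (A * B) ^ r * A ^ p * B ^ q

theorem dimM_pos {A B : ℝ} (hA : 1 ≤ A) (hB : 1 ≤ B) (r p q : ℝ) : 0 < dimM A B r p q := by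
  unfold dimM
  positivity

theorem dimM_mul {A B : ℝ} (hA : 1 ≤ A) (hB : 1 ≤ B) (r p q r' p' q' : ℝ) :
    dimM A B r p q * dimM A B r' p' q' = dimM A B (r + r') (p + p') (q + q') := by
  unfold dimM
  rw [Real.rpow_add (by positivity), Real.rpow_add (by positivity), Real.rpow_add (by positivity)]
  ring

theorem dimM_le {A B : ℝ} (hA : 1 ≤ A) (hB : 1 ≤ B) (h : B ≤ (A * B) ^ (501 / 1000 : ℝ)) {r p q : ℝ}
    (hp : p ≤ 2 / 3) (hq : 5 / 3 ≤ q) (hr : r + 1 / 100 + (q - 5 / 3) * (501 / 1000) ≤ (2 / 3 - p) * (499 / 1000)) :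
    dimM A B r p q ≤ A ^ (2 / 3 : ℝ) * B ^ (5 / 3 : ℝ) * (A * B) ^ (-(1 / 100) : ℝ) := by
  have hA0 : 0 < A := by linarith
  have hB0 : 0 < B := by linarith
  have h1 := Real.log_nonneg hA
  have h2 := Real.log_nonneg hB
  have h3 := Real.log_le_log hB0 h
  rw [Real.log_rpow (by positivity), Real.log_mul hA0.ne' hB0.ne'] at h3
  unfold dimM
  simp only [Real.rpow_def_of_pos (mul_pos hA0 hB0), Real.rpow_def_of_pos hA0, Real.rpow_def_of_pos hB0,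
    ← Real.exp_add, Real.log_mul hA0.ne' hB0.ne', Real.exp_le_exp]
  have h4 := mul_le_mul_of_nonneg_left h3 (sub_nonneg.2 hq)
  have h5 : 499 / 1000 * (Real.log A + Real.log B) ≤ Real.log A := by linarith
  have h6 := mul_le_mul_of_nonneg_left h5 (sub_nonneg.2 hp)
  have h7 := mul_le_mul_of_nonneg_right hr (add_nonneg h1 h2)
  linarith

theorem dim_CR_nonneg (γ : O → ℂ) (X : ℝ) : 0 ≤ CR γ X :=
  Finset.sum_nonneg fun g _ => mul_nonneg
    (mul_nonneg (Real.rpow_nonneg (nm_nonneg g) _) (dn_nonneg g)) (sq_nonneg _)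

theorem dim_OD_nonneg {a A B : ℝ} (ha : 0 < a) (hA : 0 < A) (hB : 0 < B) (X : ℝ) (ν : ℕ) {φ₁ φ₂ : O → ℝ}
    (h₁ : ∀ l, 0 ≤ φ₁ l) (h₂ : ∀ l, 0 ≤ φ₂ l) : 0 ≤ OD a A B X ν φ₁ φ₂ :=
  mul_nonneg (by positivity) (Finset.sum_nonneg fun l _ => mul_nonneg (sq_nonneg _)
    (add_nonneg (mul_nonneg (Real.rpow_nonneg (nm_nonneg l) _) (h₁ l)) (h₂ l)))

theorem dim_VR_neg (a A : ℝ) (γ : O → ℂ) {X : ℝ} (hX : X < 0) : VR a A γ X = 0 := by
  have : ball X = ∅ := Finset.eq_empty_of_forall_notMem fun n hn =>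
    absurd ((nm_nonneg n).trans (mem_ball.1 hn)) (not_le.2 hX)
  simp [VR, XG, Md, YM, this]

theorem dim_n6_sum {γ : O → ℂ} {B X : ℝ} (hB : 0 < B) (hγ : Supp γ B X) :
    ∑ b ∈ ball X, ‖γ b‖ * n6 b * dn b ≤ B ^ (-(1 : ℝ) / 6) * diS γ X := by
  rw [diS, Finset.mul_sum]
  refine Finset.sum_le_sum fun b _ => ?_
  by_cases hb : γ b = 0
  · simp [hb]
  rw [mul_right_comm, mul_comm]
  exact mul_le_mul_of_nonneg_right (n6_le hB (hγ b hb).2.1.le) (mul_nonneg (norm_nonneg _) (dn_nonneg b))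

/-- all the error terms -/
theorem dim_err (h' : StI0) (h'' : StT3) (k : ℕ) : ∃ C : ℝ, 0 < C ∧ ∀ (a A B X : ℝ) (γ : O → ℂ), 1 ≤ A → 1 ≤ B →
    (A * B) ^ (-(1 / 1000) : ℝ) ≤ a → a ≤ 1 → B ≤ (A * B) ^ (501 / 1000 : ℝ) → 0 ≤ X →
    X ≤ 2 * (A * B) ^ (1 / 1000 : ℝ) * B → Supp γ B X → Dv k γ →
    2 * ((A * B) ^ (-(3 / 200) : ℝ) * ‖MN a A γ X‖ +
      ((A * B) ^ (-(3 / 200) : ℝ))⁻¹ * diD ((A * B) ^ (1 / 50 : ℝ)) a A γ X +
      ‖diCT ((A * B) ^ (1 / 50 : ℝ)) a A γ X - MN a A γ X‖) + ‖(diT a A γ X : ℂ) - MN a A γ X‖ ≤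
      C * (A ^ (2 / 3 : ℝ) * B ^ (5 / 3 : ℝ) * (A * B) ^ (-(1 / 100) : ℝ)) := by
  have hε : (0 : ℝ) < 1 / 10000 := by norm_num
  obtain ⟨C₁, hC₁, H₁⟩ := di_S_le k hε
  obtain ⟨C₂, hC₂, H₂⟩ := di_MN_le
  obtain ⟨C₃, hC₃, H₃⟩ := di_D_le k hε
  obtain ⟨C₄, hC₄, H₄⟩ := di_CT_sub h' hε
  obtain ⟨C₅, H₅⟩ := h''
  refine ⟨2 * (C₂ * (16 * C₁) ^ 2 + C₃ * 32 + C₄ * (25 * (16 * C₁) ^ 2)) + |C₅| * (16 * C₁) ^ 2,
    by positivity, fun a A B X γ hA hB ha ha1 hBY hX0 hX hγ hv => ?_⟩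
  have hA0 : 0 < A := by linarith
  have hB0 : 0 < B := by linarith
  have hY : 1 ≤ A * B := one_le_mul_of_one_le_of_one_le hA hB
  have hY0 : 0 < A * B := by linarith
  have ha0 : 0 < a := (Real.rpow_pos_of_pos hY0 _).trans_le ha
  have hAY : A ≤ A * B := le_mul_of_one_le_right hA0.le hB
  have mp := dimM_pos hA hB
  have mm := dimM_mul hA hB
  have ml := @dimM_le A B hA hB hBY
  have eY : ∀ r : ℝ, (A * B) ^ r = dimM A B r 0 0 := fun r => by simp [dimM]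
  have eA : ∀ r : ℝ, A ^ r = dimM A B 0 r 0 := fun r => by simp [dimM]
  have eB : ∀ r : ℝ, B ^ r = dimM A B 0 0 r := fun r => by simp [dimM]
  have hY2 : ∀ r : ℝ, r ≤ 2 → (A * B) ^ r ≤ (A * B) ^ 2 := fun r hr => by
    rw [← Real.rpow_two]
    exact Real.rpow_le_rpow_of_exponent_le hY hr
  have hYY : A * B ≤ (A * B) ^ 2 := by simpa using hY2 1 (by norm_num)
  set R := A ^ (2 / 3 : ℝ) * B ^ (5 / 3 : ℝ) * (A * B) ^ (-(1 / 100) : ℝ) with hR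
  set Z := 8 * (A * B) ^ 2 with hZ
  set L := (A * B) ^ (1 / 50 : ℝ) with hL
  have hL0 : 0 < L := Real.rpow_pos_of_pos hY0 _
  have hZ2 : 2 ≤ Z := by linarith
  have hXY : X ≤ 2 * (A * B) ^ (502 / 1000 : ℝ) := by
    refine hX.trans ?_
    rw [show (502 / 1000 : ℝ) = 1 / 1000 + 501 / 1000 by norm_num, Real.rpow_add hY0, mul_assoc]
    gcongr
  have hXZ : X ≤ Z := by linarith [hY2 (502 / 1000) (by norm_num), sq_nonneg (A * B)]
  have z1 : Z⁻¹ ≤ a := by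
    refine le_trans ?_ ha
    rw [Real.rpow_neg hY0.le]
    exact inv_anti₀ (Real.rpow_pos_of_pos hY0 _) (by linarith [hY2 (1 / 1000) (by norm_num)])
  have z2 : 2 * X ^ 2 ≤ Z := by
    have h1 := pow_le_pow_left₀ hX0 hXY 2
    rw [mul_pow, ← Real.rpow_natCast ((A * B) ^ _), ← Real.rpow_mul hY0.le] at h1
    have h2 := hY2 (502 / 1000 * (2 : ℕ)) (by norm_num)
    linarith
  have z3 : A * X ≤ Z := by
    have h1 := mul_le_mul hAY hXY hX0 hY0.le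
    have h2 := hY2 (1 + 502 / 1000) (by norm_num)
    rw [Real.rpow_add hY0, Real.rpow_one] at h2
    linarith
  have z4 : X * L ≤ Z := by
    have h1 := mul_le_mul_of_nonneg_right hXY hL0.le
    have h2 := hY2 (502 / 1000 + 1 / 50) (by norm_num)
    rw [Real.rpow_add hY0] at h2
    linarith
  have hZe : Z ^ (1 / 10000 : ℝ) ≤ 8 * dimM A B (2 / 10000) 0 0 := by
    rw [hZ, Real.mul_rpow (by norm_num) (sq_nonneg _), ← eY, ← Real.rpow_two, ← Real.rpow_mul hY0.le,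
      show (2 * (1 / 10000) : ℝ) = 2 / 10000 by norm_num]
    refine mul_le_mul_of_nonneg_right ?_ (by positivity)
    simpa using Real.rpow_le_rpow_of_exponent_le (show (1 : ℝ) ≤ 8 by norm_num)
      (show (1 / 10000 : ℝ) ≤ 1 by norm_num)
  have hX' : X ≤ 2 * dimM A B (1 / 1000) 0 1 := by simpa [dimM, mul_assoc] using hX
  have hS0 := diS_nonneg γ X
  have hS : diS γ X ^ 2 ≤ (16 * C₁) ^ 2 * dimM A B (24 / 10000) 0 2 := by
    have h1 : diS γ X ≤ 16 * C₁ * dimM A B (12 / 10000) 0 1 := by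
      refine (H₁ γ X Z hX0 hXZ hv).trans ?_
      calc _ ≤ C₁ * (8 * dimM A B (2 / 10000) 0 0) * (2 * dimM A B (1 / 1000) 0 1) := by
            have := mp (2 / 10000) 0 0
            gcongr
        _ = 16 * C₁ * (dimM A B (2 / 10000) 0 0 * dimM A B (1 / 1000) 0 1) := by ring
        _ = _ := by rw [mm]; norm_num
    refine (pow_le_pow_left₀ hS0 h1 2).trans_eq ?_
    rw [mul_pow _ (dimM _ _ _ _ _), sq (dimM _ _ _ _ _), mm]
    norm_num
  have hLi : L⁻¹ = dimM A B (-(1 / 50)) 0 0 := by rw [← eY, Real.rpow_neg hY0.le]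
  -- the main term times `δ`
  have t1 : (A * B) ^ (-(3 / 200) : ℝ) * ‖MN a A γ X‖ ≤ C₂ * (16 * C₁) ^ 2 * R := by
    calc _ ≤ (A * B) ^ (-(3 / 200) : ℝ) * (C₂ * A ^ (2 / 3 : ℝ) * B ^ (-(1 / 3) : ℝ) *
          ((16 * C₁) ^ 2 * dimM A B (24 / 10000) 0 2)) := by
          refine mul_le_mul_of_nonneg_left ((H₂ a A B X γ ha0 ha1 hA0 hB0 hγ).trans ?_) (by positivity)
          gcongr
      _ = C₂ * (16 * C₁) ^ 2 * (dimM A B (-(3 / 200)) 0 0 * dimM A B 0 (2 / 3) 0 * dimM A B 0 0 (-(1 / 3)) *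
          dimM A B (24 / 10000) 0 2) := by rw [eY, eA, eB]; ring
      _ ≤ _ := by
          rw [mm, mm, mm]
          exact mul_le_mul_of_nonneg_left (ml (by norm_num) (by norm_num) (by norm_num)) (by positivity)
  have t2 : ((A * B) ^ (-(3 / 200) : ℝ))⁻¹ * diD L a A γ X ≤ C₃ * 32 * R := by
    have e : ((A * B) ^ (-(3 / 200) : ℝ))⁻¹ = dimM A B (3 / 200) 0 0 := by
      rw [← eY, Real.rpow_neg hY0.le, inv_inv]
    calc _ ≤ ((A * B) ^ (-(3 / 200) : ℝ))⁻¹ * (C₃ * (8 * dimM A B (2 / 10000) 0 0) * A ^ (2 / 3 : ℝ) *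
          B ^ (-(1 / 3) : ℝ) * (2 * dimM A B (1 / 1000) 0 1 / L) ^ 2) := by
          refine mul_le_mul_of_nonneg_left
            ((H₃ a A B X L Z γ ha0 ha1 hA (by linarith) hB0 hX0 hXZ hL0 hγ hv).trans ?_) (by positivity)
          have := mp (2 / 10000) 0 0
          gcongr
      _ = C₃ * 32 * (dimM A B (3 / 200) 0 0 * dimM A B (2 / 10000) 0 0 * dimM A B 0 (2 / 3) 0 *
          dimM A B 0 0 (-(1 / 3)) * dimM A B (1 / 1000) 0 1 * dimM A B (1 / 1000) 0 1 *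
          dimM A B (-(1 / 50)) 0 0 * dimM A B (-(1 / 50)) 0 0) := by
          rw [e, eA, eB, div_eq_mul_inv _ L, hLi]; ring
      _ ≤ _ := by
          rw [mm, mm, mm, mm, mm, mm, mm]
          exact mul_le_mul_of_nonneg_left (ml (by norm_num) (by norm_num) (by norm_num)) (by positivity)
  have hq : √(X * L / a ^ 3) ≤ 2 * dimM A B (12 / 1000) 0 (1 / 2) := by
    have hm := mp (12 / 1000) 0 (1 / 2)
    rw [Real.sqrt_le_iff]
    refine ⟨by positivity, ?_⟩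
    have h1 : dimM A B (-(1 / 1000)) 0 0 ^ 3 ≤ a ^ 3 := pow_le_pow_left₀ (mp _ _ _).le (eY _ ▸ ha) 3
    rw [div_le_iff₀ (by positivity)]
    calc X * L ≤ 2 * dimM A B (1 / 1000) 0 1 * L := by gcongr
      _ = 2 * dimM A B (21 / 1000) 0 1 := by rw [hL, eY, mul_assoc, mm]; norm_num
      _ ≤ 4 * dimM A B (21 / 1000) 0 1 := by linarith [mp (21 / 1000) 0 1]
      _ = (2 * dimM A B (12 / 1000) 0 (1 / 2)) ^ 2 * dimM A B (-(1 / 1000)) 0 0 ^ 3 := by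
          rw [mul_pow, sq (dimM _ _ _ _ _), pow_three, mm, mm, mm, mul_assoc, mm]
          norm_num
      _ ≤ _ := by gcongr
  have t3 : ‖diCT L a A γ X - MN a A γ X‖ ≤ C₄ * (25 * (16 * C₁) ^ 2) * R := by
    calc _ ≤ C₄ * (8 * dimM A B (2 / 10000) 0 0 * A ^ (-(1 : ℝ) / 6) * B ^ (-(1 : ℝ) / 6) *
          (√A + 2 * dimM A B (12 / 1000) 0 (1 / 2)) + A ^ (2 / 3 : ℝ) * B ^ (-(1 / 3) : ℝ) / L) *
          ((16 * C₁) ^ 2 * dimM A B (24 / 10000) 0 2) := by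
          refine (H₄ Z a A B X L γ hZ2 z1 ha1 hA hB0 hL0 hγ z2 z3 z4).trans ?_
          have := mp (2 / 10000) 0 0
          have := mp (12 / 1000) 0 (1 / 2)
          gcongr
      _ = C₄ * (16 * C₁) ^ 2 * (8 * (dimM A B (2 / 10000) 0 0 * dimM A B 0 (-1 / 6) 0 *
            dimM A B 0 0 (-1 / 6) * dimM A B 0 (1 / 2) 0 * dimM A B (24 / 10000) 0 2) +
          16 * (dimM A B (2 / 10000) 0 0 * dimM A B 0 (-1 / 6) 0 *
            dimM A B 0 0 (-1 / 6) * dimM A B (12 / 1000) 0 (1 / 2) * dimM A B (24 / 10000) 0 2) +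
          dimM A B 0 (2 / 3) 0 * dimM A B 0 0 (-(1 / 3)) * dimM A B (-(1 / 50)) 0 0 *
            dimM A B (24 / 10000) 0 2) := by
          rw [Real.sqrt_eq_rpow, div_eq_mul_inv _ L, hLi]
          simp only [eA, eB]
          ring
      _ ≤ C₄ * (16 * C₁) ^ 2 * (8 * R + 16 * R + R) := by
          simp only [mm]
          gcongr <;> exact ml (by norm_num) (by norm_num) (by norm_num)
      _ = _ := by ring
  have t4 : ‖(diT a A γ X : ℂ) - MN a A γ X‖ ≤ |C₅| * (16 * C₁) ^ 2 * R := by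
    have h1 := pow_le_pow_left₀ (Finset.sum_nonneg fun b _ =>
      mul_nonneg (mul_nonneg (norm_nonneg _) (n6_nonneg b)) (dn_nonneg b)) (dim_n6_sum hB0 hγ) 2
    rw [mul_pow] at h1
    calc _ ≤ |C₅| * √A * ((B ^ (-(1 : ℝ) / 6)) ^ 2 * ((16 * C₁) ^ 2 * dimM A B (24 / 10000) 0 2)) := by
          refine (H₅ a A B X γ ha0 ha1 hA hγ).trans (mul_le_mul ?_ (h1.trans ?_) (sq_nonneg _) (by positivity))
          · exact mul_le_mul_of_nonneg_right (le_abs_self _) (Real.sqrt_nonneg _)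
          · gcongr
      _ = |C₅| * (16 * C₁) ^ 2 * (dimM A B 0 (1 / 2) 0 * dimM A B 0 0 (-1 / 6) * dimM A B 0 0 (-1 / 6) *
          dimM A B (24 / 10000) 0 2) := by
          rw [Real.sqrt_eq_rpow, eA, eB]; ring
      _ ≤ _ := by
          rw [mm, mm, mm]
          exact mul_le_mul_of_nonneg_left (ml (by norm_num) (by norm_num) (by norm_num)) (by positivity)
  linarith

theorem stVar (h : StPOc) (h' : StI0) (h'' : StT3) : StVar := by
  intro ν k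
  obtain ⟨C₀, H₀⟩ := h ν
  obtain ⟨C, hC, H⟩ := dim_err h' h'' k
  refine ⟨3 * |C₀| + C, fun a A B X γ φ₁ φ₂ hA hB ha ha1 hBY hX hγ hv h₁ h₂ hrow => ?_⟩
  have hA0 : 0 < A := by linarith
  have hB0 : 0 < B := by linarith
  have hY : 1 ≤ A * B := one_le_mul_of_one_le_of_one_le hA hB
  have ha0 : 0 < a := (Real.rpow_pos_of_pos (by positivity) _).trans_le ha
  have p1 := N2_nonneg γ X
  have p2 := dim_CR_nonneg γ X
  have p3 := dim_OD_nonneg ha0 hA0 hB0 X ν h₁ h₂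
  rcases lt_or_ge X 0 with hX0 | hX0
  · rw [dim_VR_neg a A γ hX0]
    positivity
  have e0 := H₀ a A B X γ φ₁ φ₂ ha0 ha1 hA hB0 hγ h₁ h₂ hrow
  have e1 := H a A B X γ hA hB ha ha1 hBY hX0 hX hγ hv
  set P := (a * A + √A + A ^ (2 / 3 : ℝ)) * N2 γ X + A ^ (3 / 4 : ℝ) * B ^ (-(1 / 2) : ℝ) * CR γ X +
    OD a A B X ν φ₁ φ₂ with hP
  set R := A ^ (2 / 3 : ℝ) * B ^ (5 / 3 : ℝ) * (A * B) ^ (-(1 / 100) : ℝ) with hR
  have hP0 : 0 ≤ P := by positivity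
  have hR0 : 0 ≤ R := by positivity
  set δ := (A * B) ^ (-(3 / 200) : ℝ) with hδ
  have hδ0 : 0 < δ := by positivity
  have hδ1 : δ ≤ 1 := Real.rpow_le_one_of_one_le_of_nonpos hY (by norm_num)
  have e2 := di_VR_le ha0 hA0 γ X (MN a A γ X)
  have e3 := di_C_sub ha0 hA0 hδ0 ((A * B) ^ (1 / 50 : ℝ)) γ X
  have e4 : ‖diC a A γ X - MN a A γ X‖ ≤ ‖diC a A γ X - diCT ((A * B) ^ (1 / 50 : ℝ)) a A γ X‖ +
      ‖diCT ((A * B) ^ (1 / 50 : ℝ)) a A γ X - MN a A γ X‖ := norm_sub_le_norm_sub_add_norm_sub _ _ _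
  have e5 : EN a A γ X ≤ ‖(EN a A γ X : ℂ) - MN a A γ X‖ + ‖MN a A γ X‖ := by
    refine le_trans ?_ (norm_le_norm_sub_add _ _)
    rw [Complex.norm_real]
    exact le_abs_self _
  have e6 := mul_le_mul_of_nonneg_left e5 hδ0.le
  have e7 := mul_le_of_le_one_left (norm_nonneg ((EN a A γ X : ℂ) - MN a A γ X)) hδ1
  have e8 := mul_le_mul_of_nonneg_right (le_abs_self C₀) hP0
  have e9 := mul_nonneg (abs_nonneg C₀) hR0
  have e10 := mul_nonneg hC.le hP0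
  rw [mul_add] at e6
  nlinarith

end Crest.Agent.R12
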