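import Crest.Agent.R12.DI.Defs

/-! Row 12, block DI: the row sums `diU` of the cross term.  Prefix for helper lemmas: `dir_`. -/

set_option autoImplicit false

namespace Crest.Agent.R12

open Crest.Agent.R17
open scoped ComplexConjugate

theorem dira_sum_anti {n : O} (hn : Prim n) (f : O → ℂ) :
    ∑ p ∈ anti n, f p.1 = ∑ d ∈ pdiv n, f d := by
  refine Finset.sum_bij (fun p _ => p.1) ?_ ?_ ?_ fun _ _ => rfl
  · intro p hp
    obtain ⟨h₁, -, h⟩ := mem_anti.1 hp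
    exact (mem_pdiv hn.ne_zero).2 ⟨h₁, h ▸ dvd_mul_right _ _⟩
  · intro p hp q hq h
    obtain ⟨h₁, -, h₃⟩ := mem_anti.1 hp
    obtain ⟨-, -, h₄⟩ := mem_anti.1 hq
    refine Prod.ext h (mul_left_cancel₀ h₁.ne_zero ?_)
    rw [h₃, ← h₄]
    exact congrArg (· * q.2) h.symm
  · intro d hd
    obtain ⟨h₁, h₂⟩ := (mem_pdiv hn.ne_zero).1 hd
    obtain ⟨m, hm, h⟩ := h₁.exists_mul hn h₂
    exact ⟨(d, m), mem_anti.2 ⟨h₁, hm, h.symm⟩, rfl⟩

theorem dira_cube_dvd {δ c e : O} (hδ : Prim δ) (hc : Squarefree c) :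
    δ ^ 3 ∣ c * e ^ 3 ↔ δ ∣ e := by
  refine ⟨fun h => ?_, fun h => (pow_dvd_pow_of_dvd h 3).mul_left c⟩
  obtain ⟨g, δ', e', hg, -, rfl, rfl, hco⟩ := hδ.exists_gcd e
  have h1 : g ^ 3 * δ' ^ 3 ∣ g ^ 3 * (c * e' ^ 3) := by
    convert h using 1 <;> ring
  have h2 : δ' ^ 3 ∣ c :=
    (hco.pow (m := 3) (n := 3)).dvd_of_dvd_mul_right
      ((mul_dvd_mul_iff_left (pow_ne_zero 3 hg.ne_zero)).1 h1)
  have h3 : IsUnit δ' := hc δ' ((Dvd.intro δ' (by ring)).trans h2)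
  exact mul_dvd_mul_left g h3.dvd

theorem dira_anti_coprime {b : O} (hb : PSq b) {p : O × O} (hp : p ∈ anti b) : IsCoprime p.1 p.2 := by
  obtain ⟨h₁, h₂, h⟩ := mem_anti.1 hp
  exact ((psq_mul_iff h₁ h₂).1 (h ▸ hb)).2.2

open Classical in
/-- On the support of `TC` (`m = c e³`, `c` squarefree) a prime `p` divides `m` exactly once iff `p ∣ m`
and `¬ p³ ∣ m`.  Induction on `b`, or `sum_pdiv_sqfree`. -/
theorem dir_ind {b m : O} (hb : PSq b) (hm : TC m ≠ 0) :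
    (∑ p ∈ anti b, if p.1 ^ 3 ∣ m ∧ p.2 ∣ m then mu p.1 else 0) =
      if ∃ x, m = x * b ∧ IsCoprime x b then 1 else 0 := by
  obtain ⟨c, e, hc, he, rfl⟩ := exists_of_TC_ne_zero hm
  by_cases hbm : b ∣ c * e ^ 3
  · have h1 : (∑ p ∈ anti b, if p.1 ^ 3 ∣ c * e ^ 3 ∧ p.2 ∣ c * e ^ 3 then mu p.1 else 0) =
        ∑ p ∈ anti b, (fun d => if d ∣ e then mu d else 0) p.1 := by
      refine Finset.sum_congr rfl fun p hp => ?_
      obtain ⟨h₁, -, h⟩ := mem_anti.1 hp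
      have h2 : p.2 ∣ c * e ^ 3 := (h ▸ dvd_mul_left _ _ : p.2 ∣ b).trans hbm
      simp only [dira_cube_dvd h₁ hc.2, h2, and_true]
    rw [h1, dira_sum_anti hb.1 fun d => if d ∣ e then mu d else 0, sum_mu_coprime hb.1]
    refine if_congr ⟨fun h => ?_, ?_⟩ rfl rfl
    · obtain ⟨c', rfl⟩ := (h.pow_right (n := 3)).dvd_of_dvd_mul_right hbm
      have h2 : IsCoprime b c' := ((psq_mul_iff hb.1 (hb.1.of_mul hc.1)).1 hc).2.2
      exact ⟨c' * e ^ 3, by ring, (h2.mul_right h.pow_right).symm⟩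
    · rintro ⟨x, hx, hco⟩
      refine (hb.1.coprime_iff e).2 fun p hp _ hpb hpe => ?_
      have h2 : p ^ 3 ∣ x * b := hx ▸ (pow_dvd_pow_of_dvd hpe 3).mul_left c
      have h3 : IsCoprime (p ^ 3) x := (hco.of_isCoprime_of_dvd_right hpb).symm.pow_left
      exact hp.not_isUnit (hb.2 p ((Dvd.intro p (by ring)).trans (h3.dvd_of_dvd_mul_left h2)))
  · rw [if_neg, Finset.sum_eq_zero]
    · intro p hp
      refine if_neg fun h => hbm ?_
      obtain ⟨-, -, h₃⟩ := mem_anti.1 hp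
      rw [← h₃]
      exact (dira_anti_coprime hb hp).mul_dvd ((dvd_pow_self _ (by norm_num)).trans h.1) h.2
    · rintro ⟨x, hx, -⟩
      exact hbm (hx ▸ dvd_mul_left _ _)

open Classical in
/-- `m = x b`, `dir_ind`, `m = δ³ n` (`tsum_Pr_dvd`), `TC_mul_cube`, `LW_mul_arg` -/
theorem dir_eq {a A : ℝ} (ha : 0 < a) (hA : 0 < A) {b d : O} (hb : PSq b) (h : IsCoprime d b) :
    (∑' x : Pr, if IsCoprime (x : O) b ∧ d ∣ (x : O) then TC (x * b) * (LW a A (nm x) : ℂ) else 0) =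
      ∑ p ∈ anti b, mu p.1 * (Real.sqrt (nm p.1) : ℂ) * ∑' n : Pr,
        if p.2 * d ∣ (n : O) then TC n * (LW a (A * nm p.2 / nm p.1 ^ 2) (nm n) : ℂ) else 0 := by
  have hb0 : 0 < nm b := nm_pos hb.ne_zero
  set F : O → ℂ := fun m => if (∃ x, m = x * b ∧ IsCoprime x b) ∧ d ∣ m then
    TC m * (LW a (A * nm b) (nm m) : ℂ) else 0 with hF
  set G : O × O → O → ℂ := fun p m => if p.2 ∣ m ∧ d ∣ m then
    mu p.1 * TC m * (LW a (A * nm b) (nm m) : ℂ) else 0 with hG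
  have h1 : (∑' x : Pr, if IsCoprime (x : O) b ∧ d ∣ (x : O) then
      TC (x * b) * (LW a A (nm x) : ℂ) else 0) = ∑' m : Pr, F m := by
    have h2 : ∀ m : Pr, F m = if b ∣ (m : O) then F m else 0 := by
      intro m
      split_ifs with hm
      · rfl
      · refine if_neg ?_
        rintro ⟨⟨x, hx, -⟩, -⟩
        exact hm (hx ▸ dvd_mul_left _ _)
    rw [tsum_congr h2, tsum_Pr_dvd hb.1 F]
    refine tsum_congr fun x => ?_
    simp only [hF]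
    refine if_congr ⟨fun hx => ⟨⟨x, mul_comm _ _, hx.1⟩, hx.2.mul_left _⟩, ?_⟩ ?_ rfl
    · rintro ⟨⟨y, hy, hco⟩, hd⟩
      have : (x : O) = y := mul_left_cancel₀ hb.ne_zero (hy.trans (mul_comm _ _))
      exact ⟨this ▸ hco, h.dvd_of_dvd_mul_left hd⟩
    · rw [nm_mul, LW_mul_arg, mul_div_cancel_right₀ _ hb0.ne', mul_comm b]
  have h2 : ∀ m : O, F m = ∑ p ∈ anti b, if p.1 ^ 3 ∣ m then G p m else 0 := by
    intro m
    by_cases hm : TC m = 0
    · simp [hF, hG, hm]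
    have h3 := dir_ind hb hm
    by_cases hd : d ∣ m
    · have : F m = (if ∃ x, m = x * b ∧ IsCoprime x b then 1 else 0) *
          (TC m * (LW a (A * nm b) (nm m) : ℂ)) := by
        simp only [hF, hd, and_true]
        split_ifs <;> simp
      rw [this, ← h3, Finset.sum_mul]
      refine Finset.sum_congr rfl fun p _ => ?_
      simp only [hG, hd, and_true]
      by_cases h4 : p.1 ^ 3 ∣ m <;> by_cases h5 : p.2 ∣ m <;> simp [h4, h5, mul_assoc]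
    · simp [hF, hG, hd]
  have h3 : ∀ p ∈ anti b, Summable fun m : Pr => if p.1 ^ 3 ∣ (m : O) then G p m else 0 := by
    intro p _
    have h4 := summable_LW_pr ha (mul_pos hA hb0) (f := TC) (M := 1) (θ := 1 / 6)
      fun n _ => by simpa using norm_TC_le n
    refine Summable.of_norm_bounded h4 fun m => ?_
    simp only [hG]
    split_ifs
    · rw [mul_assoc, norm_mul]
      exact mul_le_of_le_one_left (norm_nonneg _) (norm_mu_le _)
    · simp only [norm_zero, norm_nonneg]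
    · simp only [norm_zero, norm_nonneg]
  rw [h1, tsum_congr fun m : Pr => h2 m, Summable.tsum_finsetSum h3]
  refine Finset.sum_congr rfl fun p hp => ?_
  obtain ⟨h₁, h₂, h₃⟩ := mem_anti.1 hp
  have hco := dira_anti_coprime hb hp
  have hd1 : IsCoprime d p.1 := h.of_isCoprime_of_dvd_right (h₃ ▸ dvd_mul_right _ _)
  have hd2 : IsCoprime d p.2 := h.of_isCoprime_of_dvd_right (h₃ ▸ dvd_mul_left _ _)
  rw [tsum_Pr_dvd (h₁.pow 3) (G p), ← tsum_mul_left]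
  refine tsum_congr fun n => ?_
  simp only [hG]
  have h5 : (p.2 ∣ p.1 ^ 3 * (n : O) ∧ d ∣ p.1 ^ 3 * (n : O)) ↔ p.2 * d ∣ (n : O) := by
    constructor
    · rintro ⟨h6, h7⟩
      exact hd2.symm.mul_dvd ((hco.symm.pow_right (n := 3)).dvd_of_dvd_mul_left h6)
        ((hd1.pow_right (n := 3)).dvd_of_dvd_mul_left h7)
    · intro h6
      exact ⟨((dvd_mul_right _ _).trans h6).mul_left _, ((dvd_mul_left _ _).trans h6).mul_left _⟩
  have h6 : A * nm b / nm (p.1 ^ 3) = A * nm p.2 / nm p.1 ^ 2 := by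
    have := (nm_pos h₁.ne_zero).ne'
    rw [← h₃, nm_mul, nm_pow]
    field_simp
  rw [if_congr h5 rfl rfl, nm_mul, LW_mul_arg, h6, mul_comm (p.1 ^ 3), TC_mul_cube _ h₁]
  split_ifs
  · ring
  · simp

theorem di_U_zero (a A : ℝ) {b d : O} (h : ¬ IsCoprime d b) : diU a A b d = 0 := by
  unfold diU
  refine (tsum_congr fun x => if_neg ?_).trans tsum_zero
  rintro ⟨h1, h2⟩
  exact h (h1.of_isCoprime_of_dvd_left h2)

theorem dirb_anti {n : O} (hn : Prim n) (f : O → ℂ) : ∑ p ∈ anti n, f p.1 = ∑ d ∈ pdiv n, f d := by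
  refine Finset.sum_bij (fun p _ => p.1) ?_ ?_ ?_ fun _ _ => rfl
  · intro p hp
    obtain ⟨h₁, -, h⟩ := mem_anti.1 hp
    exact (mem_pdiv hn.ne_zero).2 ⟨h₁, h ▸ dvd_mul_right _ _⟩
  · intro p hp q hq e
    obtain ⟨h₁, -, h⟩ := mem_anti.1 hp
    obtain ⟨-, -, h'⟩ := mem_anti.1 hq
    refine Prod.ext e (mul_left_cancel₀ h₁.ne_zero ?_)
    rw [h, e, h']
  · intro d hd
    obtain ⟨h₁, h⟩ := (mem_pdiv hn.ne_zero).1 hd
    obtain ⟨m, hm, e⟩ := h₁.exists_mul hn h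
    exact ⟨(d, m), mem_anti.2 ⟨h₁, hm, e.symm⟩, rfl⟩

theorem dirb_real {A u v w c : ℝ} (a : ℝ) (hA : 0 < A) (hu : 0 < u) (hv : 0 < v) :
    A ^ (-(1 : ℝ) / 6) * Real.exp (a ^ 2 * (-(1 : ℝ) / 6) ^ 2 / 2) * √u *
        (c / (v * w) * (A * Real.exp (a ^ 2 * (-(1 : ℝ) / 6)) * v / u ^ 2) ^ (5 / 6 : ℝ)) *
        Real.exp (a ^ 2 * (5 / 6) ^ 2 / 2) =
      c * A ^ (2 / 3 : ℝ) * ((u * v) ^ (-(1 : ℝ) / 6) / w) * Real.exp (a ^ 2 * (2 / 3) ^ 2 / 2) / u := by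
  obtain ⟨x, rfl⟩ : ∃ x, A = Real.exp x := ⟨_, (Real.exp_log hA).symm⟩
  obtain ⟨y, rfl⟩ : ∃ x, u = Real.exp x := ⟨_, (Real.exp_log hu).symm⟩
  obtain ⟨z, rfl⟩ : ∃ x, v = Real.exp x := ⟨_, (Real.exp_log hv).symm⟩
  have e : ∀ s t : ℝ, s = t → c / w * Real.exp s = c / w * Real.exp t := fun s t h => by rw [h]
  have := e (x * (-(1 : ℝ) / 6) + a ^ 2 * (-(1 : ℝ) / 6) ^ 2 / 2 + y * (1 / 2) - z +
      (x + a ^ 2 * (-(1 : ℝ) / 6) + z - 2 * y) * (5 / 6) + a ^ 2 * (5 / 6) ^ 2 / 2)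
    (x * (2 / 3) + (y + z) * (-(1 : ℝ) / 6) + a ^ 2 * (2 / 3) ^ 2 / 2 - y) (by ring)
  simp only [Real.exp_add, Real.exp_sub] at this
  rw [Real.sqrt_eq_rpow, ← Real.exp_nat_mul, ← Real.exp_add x, ← Real.exp_add _ z, ← Real.exp_sub,
    ← Real.exp_add y]
  simp only [← Real.exp_mul]
  push_cast
  linear_combination this

theorem dirb_LNt (a s : ℝ) :
    LNt a (s : ℂ) = ((√(2 * Real.pi) * a * Real.exp (a ^ 2 * s ^ 2 / 2) : ℝ) : ℂ) := by
  unfold LNt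
  push_cast
  ring

theorem dirb_err {A A' u v w t : ℝ} (hA' : 0 ≤ A') (h : A' ≤ A) (hu : 1 ≤ u) (hv : 0 < v) (hw : 1 ≤ w) :
    √u * (√(A' * v / u ^ 2 / (v * w)) + √(v * w / t)) ≤ √A + √(u * v * w / t) := by
  have hu0 : 0 < u := by linarith
  rw [mul_add, ← Real.sqrt_mul hu0.le, ← Real.sqrt_mul hu0.le]
  refine add_le_add (Real.sqrt_le_sqrt ?_) (le_of_eq (by congr 1; ring))
  have e : u * (A' * v / u ^ 2 / (v * w)) = A' / (u * w) := by field_simp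
  rw [e]
  exact (div_le_self hA' (one_le_mul_of_one_le_of_one_le hu hw)).trans h

/-- `LW_mul_rpow` with `σ = -1/6` (`A' = A exp(-a²/6) ∈ [A/2, A]`), `dir_eq`, `StI0` (`l = 0`) with
`Y = A' N(b')/N(δ)²`, `r = b' d`, `Phi_eq_sum`. -/
theorem di_U_sub (h' : StI0) {ε : ℝ} (hε : 0 < ε) : ∃ C : ℝ, 0 < C ∧ ∀ (Z a A : ℝ) (b d : O), 2 ≤ Z →
    Z⁻¹ ≤ a → a ≤ 1 → 1 ≤ A → PSq b → PSq d → IsCoprime d b → 2 * nm b ^ 2 ≤ Z → A * nm b ≤ Z →
    nm b * nm d ≤ Z →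
    ‖diU a A b d - ((cP * rho0 * A ^ (2 / 3 : ℝ) * (n6 b * Phi b / nm d) : ℝ) : ℂ) * LNt a (2 / 3)‖ ≤
      C * Z ^ ε * dn b * A ^ (-(1 : ℝ) / 6) * (Real.sqrt A + Real.sqrt (nm b * nm d / a ^ 3)) := by
  classical
  obtain ⟨C, H⟩ := h' 0 ε hε
  refine ⟨3 * max C 1, by positivity, fun Z a A b d hZ ha1 ha2 hA hb hd hco h1 h2 h3 => ?_⟩
  have hZ0 : 0 < Z := by linarith
  have ha : 0 < a := lt_of_lt_of_le (by positivity) ha1
  have hA0 : 0 < A := by linarith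
  have ha3 : a ^ 2 ≤ 1 := pow_le_one₀ ha.le ha2
  set A' := A * Real.exp (a ^ 2 * (-(1 : ℝ) / 6)) with hA'
  set κ := A ^ (-(1 : ℝ) / 6) * Real.exp (a ^ 2 * (-(1 : ℝ) / 6) ^ 2 / 2) with hκ
  have hA'0 : 0 < A' := by positivity
  have hκ0 : 0 < κ := by positivity
  have hA'1 : A' ≤ A := mul_le_of_le_one_right hA0.le
    (Real.exp_le_one_iff.2 (by nlinarith [sq_nonneg a]))
  have hA'2 : 1 / 2 ≤ A' := by
    have := Real.add_one_le_exp (a ^ 2 * (-(1 : ℝ) / 6))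
    nlinarith [Real.exp_pos (a ^ 2 * (-(1 : ℝ) / 6))]
  have hκ1 : κ ≤ 3 * A ^ (-(1 : ℝ) / 6) := by
    rw [hκ, mul_comm]
    refine mul_le_mul_of_nonneg_right ?_ (by positivity)
    exact (Real.exp_le_exp.2 (by linarith)).trans (Real.exp_one_lt_d9.le.trans (by norm_num))
  have e1 : diU a A b d = κ * ∑' x : Pr, if IsCoprime (x : O) b ∧ d ∣ (x : O) then
      TC (x * b) * (LW a A' (nm x) : ℂ) else 0 := by
    rw [diU, ← tsum_mul_left]
    refine tsum_congr fun x => ?_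
    split_ifs
    · have := LW_mul_rpow ha hA0 (nm_pos (Pr_prim x).ne_zero) (-(1 : ℝ) / 6)
      rw [← hA', ← hκ] at this
      rw [mul_assoc, ← Complex.ofReal_mul, n6, mul_comm (nm _ ^ _), this]
      push_cast
      ring
    · rw [mul_zero]
  have e2 : ((cP * rho0 * A ^ (2 / 3 : ℝ) * (n6 b * Phi b / nm d) : ℝ) : ℂ) * LNt a (2 / 3) =
      ∑ p ∈ anti b, κ * (mu p.1 * (Real.sqrt (nm p.1) : ℂ) *
        (((cP * rho0 / nm (p.2 * d) * (A' * nm p.2 / nm p.1 ^ 2) ^ (5 / 6 : ℝ) : ℝ) : ℂ) *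
          LNt a (5 / 6))) := by
    have l1 := dirb_LNt a (2 / 3)
    have l2 := dirb_LNt a (5 / 6)
    rw [show (((2 / 3 : ℝ)) : ℂ) = 2 / 3 by push_cast; ring] at l1
    rw [show (((5 / 6 : ℝ)) : ℂ) = 5 / 6 by push_cast; ring] at l2
    have e3 : ((cP * rho0 * A ^ (2 / 3 : ℝ) * (n6 b * Phi b / nm d) : ℝ) : ℂ) * LNt a (2 / 3) =
        ((cP * rho0 * A ^ (2 / 3 : ℝ) * (n6 b / nm d) : ℝ) : ℂ) * LNt a (2 / 3) * Phi b := by
      push_cast
      ring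
    rw [e3, Phi_eq_sum hb.ne_zero, ← dirb_anti hb.1, Finset.mul_sum]
    refine Finset.sum_congr rfl fun p hp => ?_
    obtain ⟨p1, p2, e⟩ := mem_anti.1 hp
    have := congrArg (fun t : ℝ => (t : ℂ)) (dirb_real (w := nm d) (c := cP * rho0) a hA0
      (nm_pos p1.ne_zero) (nm_pos p2.ne_zero))
    rw [l1, l2, n6, ← e, nm_mul, nm_mul]
    simp only [← hA', ← hκ] at this
    push_cast at this ⊢
    linear_combination (-(mu p.1 * √(2 * Real.pi) * a)) * this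
  rw [e1, dir_eq ha hA'0 hb hco, e2, Finset.mul_sum, ← Finset.sum_sub_distrib]
  refine (norm_sum_le _ _).trans ((Finset.sum_le_card_nsmul _ _
    (3 * max C 1 * Z ^ ε * A ^ (-(1 : ℝ) / 6) * (√A + √(nm b * nm d / a ^ 3))) fun p hp => ?_).trans
    (le_of_eq ?_))
  · obtain ⟨p1, p2, e⟩ := mem_anti.1 hp
    have u1 := one_le_nm p1.ne_zero
    have u2 := one_le_nm p2.ne_zero
    have u3 := one_le_nm hd.ne_zero
    have eb : nm b = nm p.1 * nm p.2 := by rw [← e, nm_mul]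
    have hr : PSq (p.2 * d) := by
      rw [← e] at hb hco
      exact (psq_mul_iff p2 hd.1).2 ⟨((psq_mul_iff p1 p2).1 hb).2.1, hd, hco.of_mul_right_right.symm⟩
    have v1 : nm p.1 ≤ nm b := by rw [eb]; exact le_mul_of_one_le_right (by linarith) u2
    have v2 : nm p.2 ≤ nm b := by rw [eb]; exact le_mul_of_one_le_left (by linarith) u1
    have hY1 : Z⁻¹ ≤ A' * nm p.2 / nm p.1 ^ 2 := by
      rw [le_div_iff₀ (by positivity), inv_mul_le_iff₀ hZ0]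
      have : nm p.1 ^ 2 ≤ nm b ^ 2 := by gcongr
      have : 1 / 2 * 1 ≤ A' * nm p.2 := by gcongr
      nlinarith
    have hY2 : A' * nm p.2 / nm p.1 ^ 2 ≤ Z :=
      (div_le_self (by positivity) (one_le_pow₀ u1)).trans (le_trans (by gcongr) h2)
    have := H Z a _ (p.2 * d) hZ ha1 ha2 hY1 hY2 hr (by rw [nm_mul]; exact le_trans (by gcongr) h3)
    simp only [zpow_zero, mul_one, if_true] at this
    have e4 := dirb_err (t := a ^ 3) hA'0.le hA'1 u1 (v := nm p.2) (by linarith) u3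
    rw [← eb, ← nm_mul] at e4
    rw [← mul_sub, ← mul_sub, norm_mul, norm_mul, norm_mul, Complex.norm_real, Complex.norm_real,
      Real.norm_of_nonneg hκ0.le, Real.norm_of_nonneg (Real.sqrt_nonneg _)]
    calc _ ≤ 3 * A ^ (-(1 : ℝ) / 6) * (1 * √(nm p.1) * (max C 1 * Z ^ ε *
          (√(A' * nm p.2 / nm p.1 ^ 2 / nm (p.2 * d)) + √(nm (p.2 * d) / a ^ 3)))) := by
          gcongr
          · exact norm_mu_le _
          · exact this.trans (by gcongr; exact le_max_left _ _)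
      _ = 3 * max C 1 * Z ^ ε * A ^ (-(1 : ℝ) / 6) * (√(nm p.1) *
          (√(A' * nm p.2 / nm p.1 ^ 2 / nm (p.2 * d)) + √(nm (p.2 * d) / a ^ 3))) := by ring
      _ ≤ _ := by gcongr
  · rw [nsmul_eq_mul, card_anti hb.1]
    ring

end Crest.Agent.R12
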